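 
import Vale.Agent.P251CA.CFHom
import Vale.Agent.P251CA.DayMon
import Mathlib.CategoryTheory.Monoidal.Closed.Basic

/-!
# Orthogonal spectra: the category of continuous functors is monoidal closed
-/

open CategoryTheory MonoidalCategory Topology OnePoint

namespace Vale.Agent.P251CA

open Vale.Agent.P251.H

open Vale.Agent.P251.G (LC)

namespace CF

theorem dayHomEquiv_left_symm (X : CF) {Y' Y Z : CF} (f : Y' ⟶ Y) (g : Y ⟶ IHom X Z) :
    dayHomEquiv.symm (f ≫ g) = (X ◁ f : X ⊗ Y' ⟶ X ⊗ Y) ≫ dayHomEquiv.symm g := by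
  refine tensor_ext (X := X) (Y := Y') fun a b x y => ?_
  refine (fn_dayHomEquiv_symm (f ≫ g) x y).trans ?_
  rw [fn_comp, fn_comp, whiskerLeft_tm]
  exact (fn_dayHomEquiv_symm g x (fn f y)).symm

theorem dayHomEquiv_right (X : CF) {Y Z Z' : CF} (f : X ⊗ Y ⟶ Z) (g : Z ⟶ Z') :
    dayHomEquiv (X := X) (Y := Y) (Z := Z') (f ≫ g) =
      (dayHomEquiv (X := X) (Y := Y) (Z := Z) f : Y ⟶ IHom X Z) ≫ iHomRight X g := by
  refine hom_ext fun b y => ?_
  apply toH_injective
  refine hom_ext fun a x => ?_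
  refine (fn_toH_fn_dayHomEquiv (X := X) (Y := Y) (Z := Z') (f ≫ g) x y).trans ?_
  rw [fn_comp, fn_comp, toH_fn_iHomRight, fn_comp, fn_shRFun, fn_toH_fn_dayHomEquiv]

/-- The adjunction between the tensor product and the internal hom. -/
noncomputable def tensorIHomAdj (X : CF) : tensorLeft X ⊣ iHomFunctor X :=
  Adjunction.mkOfHomEquiv
    { homEquiv := fun Y Z => dayHomEquiv (X := X) (Y := Y) (Z := Z)
      homEquiv_naturality_left_symm := fun f g => dayHomEquiv_left_symm X f g
      homEquiv_naturality_right := fun f g => dayHomEquiv_right X f g }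

noncomputable instance : MonoidalClosed CF where
  closed X := { rightAdj := iHomFunctor X, adj := tensorIHomAdj X }

end CF

end Vale.Agent.P251CA
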