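import Vale.Agent.P251CA.CF
import Vale.Agent.P251.H.PQColim
import Vale.Agent.P251.H.StabInput
import Mathlib.CategoryTheory.Limits.Preserves.Basic
import Mathlib.CategoryTheory.Limits.Shapes.Products

/-!
# Orthogonal spectra: colimits of continuous functors

Colimits in `CF` are computed levelwise.

* `HasColimitsOfSize.{0, 0} CF`, `PreservesColimitsOfSize.{0, 0} (CF.ev a)`, `HasZeroObject CF`;
* `CF.finFactor`: an object of `CF` generated by one plot satisfies `FinFactor`.
-/

open CategoryTheory MonoidalCategory Topology OnePoint Limits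

namespace Vale.Agent.P251CA

open Vale.Agent.P251.H

namespace CF

section colim

variable {J : Type} [Category.{0} J] (F : J ⥤ CF)

/-- the value of the levelwise colimit -/
noncomputable abbrev colAt (a : Sp0) : PQ := colimit (F ⋙ ev a)

/-- the inclusion of a term in the value of the levelwise colimit -/
noncomputable def inAt (j : J) (a : Sp0) : (F.obj j).obj a ⟶ colAt F a :=
  colimit.ι (F ⋙ ev a) j

theorem colAt_hom_ext {a : Sp0} {Z : PQ} {f g : colAt F a ⟶ Z}
    (h : ∀ j, inAt F j a ≫ f = inAt F j a ≫ g) : f = g :=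
  colimit.hom_ext h

/-- the action on the levelwise colimit -/
noncomputable def colimMapCF {a b : Sp0} (w : a ⟶ b) : colAt F a ⟶ colAt F b :=
  colimMap { app := fun j => (F.obj j).map w
             naturality := fun _ _ f => (Hom.naturality (F.map f) w).symm }

@[reassoc (attr := simp)]
theorem inAt_colimMapCF {a b : Sp0} (w : a ⟶ b) (j : J) :
    inAt F j a ≫ colimMapCF F w = (F.obj j).map w ≫ inAt F j b :=
  ι_colimMap _ j

@[reassoc (attr := simp)]
theorem map_inAt {i j : J} (f : i ⟶ j) (a : Sp0) :
    Hom.app (F.map f) a ≫ inAt F j a = inAt F i a :=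
  colimit.w (F ⋙ ev a) f

/-- descent at a level -/
noncomputable def descAt (s : Cocone F) (a : Sp0) : colAt F a ⟶ s.pt.obj a :=
  colimit.desc (F ⋙ ev a) ((ev a).mapCocone s)

@[reassoc (attr := simp)]
theorem inAt_descAt (s : Cocone F) (a : Sp0) (j : J) :
    inAt F j a ≫ descAt F s a = Hom.app (s.ι.app j) a :=
  colimit.ι_desc _ _

/-- the levelwise colimit -/
noncomputable def colimCF : CF where
  obj a := colAt F a
  map w := colimMapCF F w
  map_id a := by
    apply colAt_hom_ext; intro j
    rw [inAt_colimMapCF, (F.obj j).map_id, Category.comp_id, Category.id_comp]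
  map_comp f g := by
    apply colAt_hom_ext; intro j
    rw [inAt_colimMapCF, (F.obj j).map_comp, inAt_colimMapCF_assoc, inAt_colimMapCF,
      Category.assoc]
  map_zero a b := by
    apply colAt_hom_ext; intro j
    rw [inAt_colimMapCF, (F.obj j).map_zero, zero_comp, comp_zero]
  map_plot := fun {a b} K w x hw hx => by
    have key := PQ.isColimit_plot_prod (colimit.isColimit (F ⋙ ev a))
      (Y := colAt F b) K (fun y k => PQ.app (colimMapCF F (w k)) y)
      (by
        have : (fun k => PQ.app (colimMapCF F (w k)) ∞) = fun _ => ∞ := by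
          funext k; exact PQ.app_infty _
        rw [this]
        exact PQ.plot_const _ K ∞)
      (by
        intro K' j y hy
        have h1 := (F.obj j).map_plot (CH.prod K' K) (fun p => w p.2) (fun p => y p.1)
          (Sp0.plot_pre (K := K) (L := CH.prod K' K) Prod.snd continuous_snd hw)
          (((F.obj j).obj a).plot_comp (K := K') (L := CH.prod K' K) Prod.fst y
            continuous_fst hy)
        have h2 := PQ.app_plot (inAt F j b) h1
        have h3 : (fun p : K' × K => PQ.app (colimMapCF F (w p.2))
            (PQ.app ((colimit.cocone (F ⋙ ev a)).ι.app j) (y p.1))) =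
            fun p => PQ.app (inAt F j b) (PQ.app ((F.obj j).map (w p.2)) (y p.1)) := by
          funext p
          exact congrArg (fun φ => PQ.app φ (y p.1)) (inAt_colimMapCF F (w p.2) j)
        rw [h3]
        exact h2) hx
    exact PQ.plot_comp _ (K := CH.prod K K) (L := K) (fun k => (k, k)) _ (by fun_prop) key

/-- the levelwise colimit cocone -/
noncomputable def colimCFCocone : Cocone F where
  pt := colimCF F
  ι :=
    { app := fun j => ⟨fun a => inAt F j a, fun w => (inAt_colimMapCF F w j).symm⟩
      naturality := fun i j f => by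
        apply hom_ext'; intro a
        exact (map_inAt F f a).trans (Category.comp_id _).symm }

/-- The levelwise colimit cocone is a colimit at each level. -/
noncomputable def colimCFCoconeEv (a : Sp0) : IsColimit ((ev a).mapCocone (colimCFCocone F)) :=
  IsColimit.ofIsoColimit (colimit.isColimit (F ⋙ ev a))
    (Cocone.ext (Iso.refl _) (fun _ => Category.comp_id _))

/-- The levelwise colimit is a colimit. -/
noncomputable def colimCFIsColimit : IsColimit (colimCFCocone F) where
  desc s := ⟨fun a => descAt F s a, fun {a b} w => by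
    apply colAt_hom_ext; intro j
    change inAt F j a ≫ colimMapCF F w ≫ descAt F s b = inAt F j a ≫ descAt F s a ≫ _
    rw [inAt_colimMapCF_assoc, inAt_descAt, inAt_descAt_assoc]
    exact Hom.naturality (s.ι.app j) w⟩
  fac s j := by
    apply hom_ext'; intro a
    exact inAt_descAt F s a j
  uniq s m h := by
    apply hom_ext'; intro a
    apply colAt_hom_ext; intro j
    refine Eq.trans ?_ (inAt_descAt F s a j).symm
    exact congrArg (fun φ => Hom.app φ a) (h j)

end colim

instance : HasColimitsOfSize.{0, 0} CF where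
  has_colimits_of_shape _ _ :=
    { has_colimit := fun F => ⟨⟨{ cocone := colimCFCocone F, isColimit := colimCFIsColimit F }⟩⟩ }

instance (a : Sp0) : PreservesColimitsOfSize.{0, 0} (ev a) where
  preservesColimitsOfShape {_ _} :=
    { preservesColimit := fun {F} =>
        preservesColimit_of_preserves_colimit_cocone (colimCFIsColimit F) (colimCFCoconeEv F a) }

section ofEv

variable {J : Type} [Category.{0} J] {F : J ⥤ CF} (c : Cocone F)
  (h : ∀ a, IsColimit ((ev a).mapCocone c))

include h in
theorem ev_hom_ext {a : Sp0} {Z : PQ} {f g : c.pt.obj a ⟶ Z}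
    (w : ∀ j, Hom.app (c.ι.app j) a ≫ f = Hom.app (c.ι.app j) a ≫ g) : f = g :=
  (h a).hom_ext w

/-- descent at a level -/
def evDesc (s : Cocone F) (a : Sp0) : c.pt.obj a ⟶ s.pt.obj a :=
  (h a).desc ((ev a).mapCocone s)

@[reassoc]
theorem evDesc_fac (s : Cocone F) (a : Sp0) (j : J) :
    Hom.app (c.ι.app j) a ≫ evDesc c h s a = Hom.app (s.ι.app j) a :=
  (h a).fac ((ev a).mapCocone s) j

/-- A cocone in `CF` which is a colimit at each level is a colimit. -/
def isColimitOfEv : IsColimit c where
  desc s := ⟨fun a => evDesc c h s a, fun {a b} w => by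
    apply ev_hom_ext c h; intro j
    have n1 : (F.obj j).map w ≫ Hom.app (c.ι.app j) b = Hom.app (c.ι.app j) a ≫ c.pt.map w :=
      Hom.naturality (c.ι.app j) w
    have n2 : (F.obj j).map w ≫ Hom.app (s.ι.app j) b = Hom.app (s.ι.app j) a ≫ s.pt.map w :=
      Hom.naturality (s.ι.app j) w
    rw [evDesc_fac_assoc, ← Category.assoc, ← n1, Category.assoc, evDesc_fac, n2]⟩
  fac s j := by
    apply hom_ext'; intro a
    exact evDesc_fac c h s a j
  uniq s m hm := by
    apply hom_ext'; intro a
    apply ev_hom_ext c h; intro j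
    refine Eq.trans ?_ (evDesc_fac c h s a j).symm
    exact congrArg (fun φ => Hom.app φ a) (hm j)

end ofEv

section zero

theorem isZero_of_ev (X : CF) (h : ∀ a, IsZero (X.obj a)) : IsZero X := by
  rw [IsZero.iff_id_eq_zero]
  apply hom_ext'; intro a
  exact (h a).eq_of_src _ _

theorem isZero_ev {X : CF} (h : IsZero X) (a : Sp0) : IsZero (X.obj a) := by
  rw [IsZero.iff_id_eq_zero] at h ⊢
  exact congrArg (fun φ => Hom.app φ a) h

/-- the zero object -/
def zeroCF : CF where
  obj _ := PQ.zeroObj
  map _ := 𝟙 _
  map_id _ := rfl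
  map_comp _ _ := rfl
  map_zero _ _ := PQ.isZero_zeroObj.eq_of_src _ _
  map_plot _ _ _ _ hx := hx

instance : HasZeroObject CF := ⟨⟨zeroCF, isZero_of_ev _ (fun _ => PQ.isZero_zeroObj)⟩⟩

end zero

/-- An object generated by one plot (for example `L^{⊗ n} ⊗ j K`) satisfies `FinFactor`. -/
theorem finFactor (E : CF) (a : Sp0) (K : CH) (u : K → OnePoint (E.obj a))
    (hu : (E.obj a).plot K u)
    (h : ∀ (Z : CF) (f g : E ⟶ Z), (∀ k, fn f (u k) = fn g (u k)) → f = g) : FinFactor E := by
  classical
  intro ι X f
  obtain ⟨s, hs⟩ := PQ.coproduct_plot_finite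
    (isColimitOfPreserves (ev a) (coproductIsCoproduct X)) (K := K)
    (f := fun k => fn f (u k)) (fn_plot f hu)
  refine ⟨s, f ≫ Sigma.desc (fun i => if h : i ∈ s then
    Sigma.ι (fun i : s => X i) ⟨i, h⟩ else 0), ?_⟩
  apply h
  intro k
  rw [fn_comp, fn_comp, ← fn_comp]
  refine hs (Hom.app (Sigma.desc (fun i => if h : i ∈ s then
    Sigma.ι (fun i : s => X i) ⟨i, h⟩ else 0) ≫
      Sigma.desc (fun i : s => Sigma.ι X i)) a) (fun i hi => ?_) k
  have key : Sigma.ι X i ≫ (Sigma.desc (fun i => if h : i ∈ s then
      Sigma.ι (fun i : s => X i) ⟨i, h⟩ else 0) ≫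
      Sigma.desc (fun i : s => Sigma.ι X i)) = Sigma.ι X i := by
    rw [Sigma.ι_desc_assoc, dif_pos hi, Sigma.ι_desc]
  exact congrArg (fun φ => Hom.app φ a) key

end CF

end Vale.Agent.P251CA
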