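 
import Vale.Agent.P251CA.CFClosed
import Vale.Agent.P251CA.CFColim
import Vale.Agent.P251CA.CFRep

/-!
# Orthogonal spectra: the cells of `CF` are generated by one plot, hence compact
-/

open CategoryTheory MonoidalCategory Topology OnePoint

namespace Vale.Agent.P251CA

open Vale.Agent.P251.H

open Vale.Agent.P251.G (LC)

namespace CF

/-- `E` is generated by one plot. -/
def GenByPlot (E : CF) : Prop :=
  ∃ (a : Sp0) (K : CH) (u : K → OnePoint (E.obj a)), (E.obj a).plot K u ∧
    ∀ (Z : CF) (f g : E ⟶ Z), (∀ k, fn f (u k) = fn g (u k)) → f = g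

theorem GenByPlot.finFactor {E : CF} (h : GenByPlot E) : FinFactor E := by
  obtain ⟨a, K, u, hu, h⟩ := h
  exact CF.finFactor E a K u hu h

theorem GenByPlot.tensor {X Y : CF} (hX : GenByPlot X) (hY : GenByPlot Y) :
    GenByPlot (X ⊗ Y) := by
  obtain ⟨a, K, u, hu, h⟩ := hX
  obtain ⟨b, L, v, hv, h'⟩ := hY
  refine ⟨a ⊗ b, CH.prod K L, fun p => tm (u p.1) (v p.2),
    tm_plot ((X.obj a).plot_comp (K := K) (L := CH.prod K L) Prod.fst u continuous_fst hu)
      ((Y.obj b).plot_comp (K := L) (L := CH.prod K L) Prod.snd v continuous_snd hv),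
    fun Z f g hfg => ?_⟩
  apply (dayHomEquiv (X := X) (Y := Y) (Z := Z)).injective
  apply h'
  intro l
  apply toH_injective
  apply h
  intro k
  rw [fn_toH_fn_dayHomEquiv, fn_toH_fn_dayHomEquiv]
  exact hfg (k, l)

theorem genByPlot_rep (a : Sp0) : GenByPlot (rep a) :=
  ⟨a, CH.of Unit, fun _ => pr (𝟙 a), ((rep a).obj a).plot_const _ _,
    fun _ _ _ h => rep_hom_ext (h ())⟩

theorem genByPlot_sphere : GenByPlot sphere :=
  ⟨𝟙_ Sp0, CH.of Unit, fun _ => sp pu, (sphere.obj _).plot_const _ _,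
    fun _ _ _ h => sphere_hom_ext (h ())⟩

theorem genByPlot_F (K : LC) : GenByPlot (F.obj (PQ.ofLC K)) :=
  ⟨𝟙_ Sp0, CH.of (OnePoint K), fun k => fm (A := PQ.ofLC K) k pu,
    fm_plot (A := PQ.ofLC K) (K := CH.of (OnePoint K)) (continuous_id : Continuous fun k => k)
      continuous_const,
    fun _ _ _ h => F_hom_ext h⟩

theorem genByPlot_tpow {X : CF} (h : GenByPlot X) (n : ℕ) : GenByPlot (tpow X n) := by
  induction n with
  | zero => exact genByPlot_sphere
  | succ n ih => exact h.tensor ih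

/-- The cells are compact. -/
theorem finFactor_cell (a : Sp0) (n : ℕ) (K : LC) :
    FinFactor (tpow (rep a) n ⊗ F.obj (PQ.ofLC K)) :=
  ((genByPlot_tpow (genByPlot_rep a) n).tensor (genByPlot_F K)).finFactor

end CF

end Vale.Agent.P251CA
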