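 
import Vale.Agent.P251CA.CFColim
import Vale.Agent.P251CA.CFRep
import Vale.Agent.P251.H.PQLCPush
import Mathlib.CategoryTheory.Adjunction.Limits

/-!
# Orthogonal spectra: pushouts and the zero object under `LC ⥤ CF`
-/

open CategoryTheory MonoidalCategory Topology OnePoint Limits

namespace Vale.Agent.P251CA

open Vale.Agent.P251.H

open Vale.Agent.P251.G

namespace CF

theorem isPushout_F_LCPQ {A B C D : LC} {i : A ⟶ B} {f : A ⟶ C} {g : B ⟶ D} {k : C ⟶ D}
    (hi : Function.Injective (LC.app i)) (h : IsPushout i f g k) :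
    IsPushout ((PQ.LCPQ ⋙ F).map i) ((PQ.LCPQ ⋙ F).map f) ((PQ.LCPQ ⋙ F).map g)
      ((PQ.LCPQ ⋙ F).map k) :=
  (PQ.isPushout_LCPQ_of_isPushout hi h).map F

theorem isZero_F_empty : IsZero ((PQ.LCPQ ⋙ F).obj (LC.of Empty)) := by
  rw [IsZero.iff_id_eq_zero]
  apply F_hom_ext
  intro k
  have : k = ∞ := by
    induction k using OnePoint.rec with
    | infty => rfl
    | coe x => exact x.elim
  rw [this, fm_infty_left, fn_infty, fn_infty]

end CF

end Vale.Agent.P251CA
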