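 
import Vale.Agent.P251CA.CFRep

/-!
# Orthogonal spectra: the functor `F : PQ ⥤ CF` is fully faithful
-/

open CategoryTheory MonoidalCategory Topology OnePoint

namespace Vale.Agent.P251CA

open Vale.Agent.P251.H

open Vale.Agent.P251.G (LC)
open Vale.Agent.P251.G.LC (smash)

namespace CF

/-- the inverse of `Funit A` -/
noncomputable def Fcounit (A : PQ) : (F.obj A).obj (𝟙_ Sp0) ⟶ A :=
  A ◁ (PQ.εLC.inv : PQ.ofLC (𝟙_ LC) ⟶ 𝟙_ PQ) ≫ (ρ_ A).hom

@[simp] theorem app_Fcounit (A : PQ) (k : OnePoint A) :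
    PQ.app (Fcounit A) (fm k pu) = k := by
  refine (congrArg (PQ.app (ρ_ A).hom)
    (PQ.app_whiskerLeft_smash A (PQ.εLC.inv : PQ.ofLC (𝟙_ LC) ⟶ 𝟙_ PQ) k pu)).trans ?_
  exact PQ.app_rightUnitor_smash A k

/-- The unit of the free-evaluation adjunction is invertible. -/
noncomputable def FunitIso (A : PQ) : A ≅ (F.obj A).obj (𝟙_ Sp0) where
  hom := Funit A
  inv := Fcounit A
  hom_inv_id := PQ.hom_ext' (fun k => app_Fcounit A k)
  inv_hom_id := PQ.hom_ext' (fun z => by
    obtain ⟨k, x, rfl⟩ := fm_surjective z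
    induction x using OnePoint.rec with
    | infty => rw [fm_infty_right, PQ.app_infty, PQ.app_infty]
    | coe x =>
      cases x
      exact congrArg (PQ.app (Funit A)) (app_Fcounit A k))

/-- `F` is fully faithful. -/
noncomputable def fullyFaithfulF : F.FullyFaithful where
  preimage {A B} f := Funit A ≫ Hom.app f (𝟙_ Sp0) ≫ Fcounit B
  map_preimage {A B} f := by
    apply F_hom_ext
    intro k
    rw [fn_F_map, ← app_Funit, ← PQ.app_comp]
    change PQ.app ((Funit A ≫ Hom.app f (𝟙_ Sp0)) ≫ Fcounit B ≫ Funit B) k = _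
    have h : Fcounit B ≫ Funit B = 𝟙 _ := (FunitIso B).inv_hom_id
    rw [h, Category.comp_id]
    rfl
  preimage_map {A B} f := by
    apply PQ.hom_ext'
    intro k
    change PQ.app (Fcounit B) (fn (F.map f) (fm k pu)) = _
    rw [fn_F_map, app_Fcounit]

instance : F.Full := fullyFaithfulF.full

instance : F.Faithful := fullyFaithfulF.faithful

end CF

end Vale.Agent.P251CA
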