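import Vale.Agent.P251CA.W0
import Mathlib.Topology.Homeomorph.Lemmas
import Mathlib.Algebra.BigOperators.Fin

/-!
# Coordinates on the codes of spheres
-/

open CategoryTheory MonoidalCategory Topology OnePoint Matrix

namespace Vale.Agent.P251CA

open Vale.Agent.P251.H

open Vale.Agent.P251.G (LC)
open Vale.Agent.P251.G.LC (smash)

theorem append_dot {m n : ℕ} (u u' : Fin m → ℝ) (v v' : Fin n → ℝ) :
    Fin.append u v ⬝ᵥ Fin.append u' v' = u ⬝ᵥ u' + v ⬝ᵥ v' := by
  simp [dotProduct, Fin.sum_univ_add]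

namespace Sp0

/-- the dimension -/
def dim : Sp0 → ℕ
  | one => 0
  | gen => 1
  | tens a b => dim a + dim b
  | euc n => n

@[simp] theorem dim_unit : dim (𝟙_ Sp0) = 0 := rfl
@[simp] theorem dim_one : dim one = 0 := rfl
@[simp] theorem dim_gen : dim gen = 1 := rfl
@[simp] theorem dim_tensor (a b : Sp0) : dim (a ⊗ b) = dim a + dim b := rfl
@[simp] theorem dim_tens (a b : Sp0) : dim (tens a b) = dim a + dim b := rfl
@[simp] theorem dim_euc (n : ℕ) : dim (euc n) = n := rfl

/-- the coordinates -/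
def crd : (a : Sp0) → a.s.carrier ≃ₜ (Fin (dim a) → ℝ)
  | one => Homeomorph.homeomorphOfUnique Unit (Fin 0 → ℝ)
  | gen => (Homeomorph.funUnique (Fin 1) ℝ).symm
  | tens a b => ((crd a).prodCongr (crd b)).trans (Fin.appendHomeomorph (dim a) (dim b))
  | euc _ => Homeomorph.refl _

theorem crd_gen (x : ℝ) : crd gen x = fun _ => x := rfl

theorem crd_euc (n : ℕ) (x : Fin n → ℝ) : crd (euc n) x = x := rfl

theorem crd_symm_euc (n : ℕ) (x : Fin n → ℝ) : (crd (euc n)).symm x = x := rfl

theorem crd_tensor (a b : Sp0) (x : a.s) (y : b.s) :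
    crd (a ⊗ b) (x, y) = Fin.append (crd a x) (crd b y) := rfl

theorem crd_tensor' (a b : Sp0) (z : (a ⊗ b).s) :
    crd (a ⊗ b) z = Fin.append (crd a z.1) (crd b z.2) := rfl

theorem crd_symm_append (a b : Sp0) (u : Fin (dim a) → ℝ) (v : Fin (dim b) → ℝ) :
    (crd (a ⊗ b)).symm (Fin.append u v) = ((crd a).symm u, (crd b).symm v) := by
  apply (crd (a ⊗ b)).injective
  refine ((crd (a ⊗ b)).apply_symm_apply _).trans ?_
  exact (congrArg₂ Fin.append ((crd a).apply_symm_apply u) ((crd b).apply_symm_apply v)).symm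

theorem ip_euc (n : ℕ) (x y : Fin n → ℝ) : (euc n).ip x y = x ⬝ᵥ y := rfl

theorem ip_crd (a : Sp0) (x y : a.s) : a.ip x y = crd a x ⬝ᵥ crd a y := by
  induction a with
  | one => rfl
  | gen => exact (Fin.sum_univ_one (fun _ => (show ℝ from x) * (show ℝ from y))).symm
  | tens a b iha ihb =>
    exact (congrArg₂ (· + ·) (iha x.1 y.1) (ihb x.2 y.2)).trans (append_dot _ _ _ _).symm
  | euc n => rfl

/-- every code is isomorphic to a Euclidean one -/
def toEuc (a : Sp0) : a ≅ euc (dim a) :=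
  isoMk (LC.ofHomeo (X := a.s) (Y := (euc (dim a)).s) (crd a))
    (.of (crd a) (fun _ => rfl) fun x y => (ip_crd a x y).symm)
    (.of (crd a).symm (fun _ => rfl) fun x y => (ip_crd a _ _).trans
      (congrArg₂ dotProduct ((crd a).apply_symm_apply x) ((crd a).apply_symm_apply y)))

theorem app_toEuc_hom (a : Sp0) (x : a.s) :
    LC.app (toEuc a).hom.hom (x : OnePoint a.s) =
      ((crd a x : Fin (dim a) → ℝ) : OnePoint (Fin (dim a) → ℝ)) := rfl

theorem app_toEuc_inv (a : Sp0) (x : Fin (dim a) → ℝ) :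
    LC.app (toEuc a).inv.hom (x : OnePoint (Fin (dim a) → ℝ)) =
      (((crd a).symm x : a.s) : OnePoint a.s) := rfl

theorem app_toEuc_hom' (a : Sp0) (x : OnePoint a.s) :
    LC.app (toEuc a).hom.hom x = OnePoint.map (crd a) x := rfl

theorem app_toEuc_inv' (a : Sp0) (x : OnePoint (Fin (dim a) → ℝ)) :
    LC.app (toEuc a).inv.hom x = OnePoint.map (crd a).symm x := rfl

@[simp] theorem toEuc_euc_hom (n : ℕ) : (toEuc (euc n)).hom = 𝟙 (euc n) :=
  hom_ext (LC.hom_ext fun _ => rfl)

@[simp] theorem toEuc_euc_inv (n : ℕ) : (toEuc (euc n)).inv = 𝟙 (euc n) :=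
  hom_ext (LC.hom_ext fun _ => rfl)

/-- Morphisms of codes are determined by their values. -/
theorem app_ext {a b : Sp0} {f g : a ⟶ b}
    (h : ∀ x : a.s, LC.app f.hom (x : OnePoint a.s) = LC.app g.hom x) : f = g :=
  hom_ext (LC.hom_ext h)

/-- Two plots agree on a closed set. -/
theorem plot_isClosed_eq {K : CH} {a b : Sp0} {w v : K → (a ⟶ b)} (hw : plot K w)
    (hv : plot K v) : IsClosed {k | w k = v k} := by
  have : {k | w k = v k} = ⋂ x : OnePoint a.s,
      {k | LC.app (w k).hom x = LC.app (v k).hom x} := by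
    ext k
    simp only [Set.mem_ofPred_eq, Set.mem_iInter]
    exact ⟨fun h x => by rw [h], fun h => app_ext fun x => h x⟩
  rw [this]
  exact isClosed_iInter fun x => isClosed_eq
    (hw.comp (continuous_id.prodMk continuous_const))
    (hv.comp (continuous_id.prodMk continuous_const))

/-- Plots may be tested in coordinates. -/
theorem plot_iff_euc {K : CH} {a b : Sp0} (w : K → (a ⟶ b)) :
    plot K w ↔ plot K (fun k => (toEuc a).inv ≫ w k ≫ (toEuc b).hom) := by
  refine ⟨fun h => plot_comp (plot_const K _) (plot_comp h (plot_const K _)), fun h => ?_⟩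
  have := plot_comp (plot_const K (toEuc a).hom) (plot_comp h (plot_const K (toEuc b).inv))
  simpa using this

/-- One surjective plot in the Euclidean case gives one in general. -/
theorem surj_plot_of_euc
    (h : ∀ m n : ℕ, ∃ (K : CH) (w : K → (euc m ⟶ euc n)), plot K w ∧ Function.Surjective w)
    (a b : Sp0) : ∃ (K : CH) (w : K → (a ⟶ b)), plot K w ∧ Function.Surjective w := by
  obtain ⟨K, w, hw, hs⟩ := h (dim a) (dim b)
  refine ⟨K, fun k => (toEuc a).hom ≫ w k ≫ (toEuc b).inv,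
    plot_comp (plot_const K _) (plot_comp hw (plot_const K _)), fun f => ?_⟩
  obtain ⟨k, hk⟩ := hs ((toEuc a).inv ≫ f ≫ (toEuc b).hom)
  exact ⟨k, by simp [hk]⟩

end Sp0

end Vale.Agent.P251CA
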