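import Vale.Agent.P251CA.FMon
import Vale.Agent.P251.H.StabInput

/-!
# Orthogonal spectra (block P5b): the formal desuspension in continuous functors

`L = rep gen`, the structure map `lam : L ⊗ F S¹ ⟶ 𝟙`, and the isomorphism
`shIso K : F (ℝ ⊗ K) ≅ sh gen (F K)`.
-/

open CategoryTheory MonoidalCategory Topology OnePoint

namespace Vale.Agent.P251CA

open Vale.Agent.P251.H

open Vale.Agent.P251.G (LC)
open Vale.Agent.P251.G.LC (smash smash_coe_coe smash_infty_left smash_infty_right RR II)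

namespace CF

/-- The functor from spaces to continuous functors. -/
abbrev jC : LC ⥤ CF := PQ.LCPQ ⋙ F

section jm

variable {K K' : LC} {a b : Sp0}

/-- the points of `jC.obj K` -/
def jm (k : OnePoint K) (x : OnePoint a.s) : OnePoint ((jC.obj K).obj a) :=
  fm (A := PQ.LCPQ.obj K) k x

theorem jm_eq_smash (k : OnePoint K) (x : OnePoint a.s) : jm k x = smash k x := rfl

@[simp] theorem jm_infty_left (x : OnePoint a.s) : jm (∞ : OnePoint K) x = ∞ :=
  fm_infty_left (A := PQ.LCPQ.obj K) _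

@[simp] theorem jm_infty_right (k : OnePoint K) : jm k (∞ : OnePoint a.s) = ∞ :=
  fm_infty_right (A := PQ.LCPQ.obj K) _

theorem jm_surjective (z : OnePoint ((jC.obj K).obj a)) :
    ∃ (k : OnePoint K) (x : OnePoint a.s), jm k x = z :=
  fm_surjective (A := PQ.LCPQ.obj K) z

theorem jC_act (w : a ⟶ b) (k : OnePoint K) (x : OnePoint a.s) :
    (jC.obj K).act w (jm k x) = jm k (LC.app w.hom x) :=
  F_act (A := PQ.LCPQ.obj K) w k x

theorem fn_jC_map (f : K ⟶ K') (k : OnePoint K) (x : OnePoint a.s) :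
    fn (jC.map f) (jm k x) = jm (LC.app f k) x :=
  fn_F_map (PQ.LCPQ.map f) k x

theorem jC_plot_iff {T : CH} {z : T → OnePoint ((jC.obj K).obj a)} :
    ((jC.obj K).obj a).plot T z ↔
      @Continuous T (OnePoint (K × a.s)) _ _ z :=
  PQ.tensor_plot_iff (X := K) (Y := a.s)

/-- the action of a morphism `f : gen ⟶ a` on a point of `jC.obj RR` -/
def ract (f : Sp0.gen ⟶ a) (y : OnePoint ((jC.obj RR).obj b)) : OnePoint (sphere.obj (a ⊗ b)) :=
  sp (LC.app (f ▷ b).hom (y : OnePoint (Sp0.gen ⊗ b).s))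

theorem ract_jm (f : Sp0.gen ⟶ a) (r : OnePoint RR) (t : OnePoint b.s) :
    ract f (jm r t) = sp (a := a ⊗ b) (smash (LC.app f.hom r) t) :=
  LC.app_whiskerRight_smash f.hom b.s r t

end jm

/-- the bilinear map `(f, (r, t)) ↦ (f r, t)` -/
noncomputable def lamBil : Bil (rep Sp0.gen) (jC.obj RR) sphere where
  toFun x y := ract (unpr x) y
  infty_left {a b} y := by
    rw [unpr_infty, ract, Sp0.zero_whiskerRight]
    rfl
  infty_right {a b} x := LC.app_infty ((unpr x).hom ▷ b.s)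
  nat {a b a' b'} u v x y := by
    obtain ⟨r, t, rfl⟩ := jm_surjective y
    rw [jC_act, unpr_rep_act, ract_jm, ract_jm]
    exact (congrArg sp (LC.app_tensorHom_smash u.hom v.hom (LC.app (unpr x).hom r) t)).symm
  plot {a b} K x y hx hy := by
    have h1 := Sp0.plot_whiskerRight (unpr_plot hx) b
    exact h1.comp (continuous_id.prodMk (jC_plot_iff.mp hy))

/-- The structure map `L ⊗ S¹ ⟶ 𝟙`. -/
noncomputable def lamC : rep Sp0.gen ⊗ jC.obj RR ⟶ 𝟙_ CF := tensorDesc lamBil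

theorem lamC_tm {a b : Sp0} (f : Sp0.gen ⟶ a) (r : OnePoint RR) (t : OnePoint b.s) :
    fn lamC (tm (pr f) (jm r t)) = sp (a := a ⊗ b) (smash (LC.app f.hom r) t) := by
  rw [lamC, tensorDesc_tm]
  change ract (unpr (pr f)) (jm r t) = _
  rw [unpr_pr, ract_jm]

/-! ### The shift of `F K` -/

section shift

variable (K : LC)

/-- the rearrangement `(ℝ ⊗ K) ⊗ b ≅ K ⊗ (ℝ ⊗ b)` -/
def shLC (b : Sp0) : (RR ⊗ K) ⊗ b.s ≅ K ⊗ (Sp0.gen ⊗ b).s :=
  whiskerRightIso (β_ RR K) b.s ≪≫ α_ K RR b.s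

theorem app_shLC_hom {b : Sp0} (r : OnePoint RR) (k : OnePoint K) (t : OnePoint b.s) :
    LC.app (shLC K b).hom (smash (smash r k) t) = smash k (smash r t) := by
  refine (LC.app_comp _ _ _).trans ?_
  refine (congrArg (LC.app (α_ K RR b.s).hom) (LC.app_whiskerRight_smash _ _ _ _)).trans ?_
  refine (congrArg (fun z => LC.app (α_ K RR b.s).hom (smash z t))
    (LC.app_braiding_smash RR K r k)).trans ?_
  exact LC.app_associator_smash K RR b.s k r t

/-- `(F (ℝ ⊗ K)).obj b ≅ (F K).obj (gen ⊗ b)` -/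
def shPQ (b : Sp0) : (jC.obj (RR ⊗ K)).obj b ≅ ((sh Sp0.gen).obj (jC.obj K)).obj b :=
  PQ.μLC (RR ⊗ K) b.s ≪≫ PQ.LCPQ.mapIso (shLC K b) ≪≫ (PQ.μLC K (Sp0.gen ⊗ b).s).symm

theorem app_shPQ_hom {b : Sp0} (r : OnePoint RR) (k : OnePoint K) (t : OnePoint b.s) :
    PQ.app (shPQ K b).hom (jm (K := RR ⊗ K) (smash r k) t) =
      jm (K := K) (a := Sp0.gen ⊗ b) k (smash r t) :=
  app_shLC_hom K r k t

/-- `F (ℝ ⊗ K) ≅ sh gen (F K)` -/
def shIso : jC.obj (RR ⊗ K) ≅ (sh Sp0.gen).obj (jC.obj K) :=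
  isoMk (shPQ K) (fun {b c} w => by
    apply PQ.hom_ext'
    intro z
    obtain ⟨rk, t, rfl⟩ := jm_surjective z
    obtain ⟨⟨r, k⟩, rfl⟩ := Sp0.smash_surjective rk
    refine (congrArg (PQ.app (shPQ K c).hom) (jC_act w (smash r k) t)).trans ?_
    refine (app_shPQ_hom K r k _).trans ?_
    refine Eq.trans ?_ (congrArg ((jC.obj K).act (Sp0.gen ◁ w)) (app_shPQ_hom K r k t).symm)
    refine Eq.trans ?_ (jC_act (Sp0.gen ◁ w) k (smash r t)).symm
    exact congrArg (jm k) (LC.app_whiskerLeft_smash RR w.hom r t).symm)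

theorem fn_shIso_hom {b : Sp0} (r : OnePoint RR) (k : OnePoint K) (t : OnePoint b.s) :
    fn (shIso K).hom (jm (K := RR ⊗ K) (smash r k) t) =
      jm (K := K) (a := Sp0.gen ⊗ b) k (smash r t) :=
  app_shLC_hom K r k t

end shift

/-! ### The evaluation -/

section ev

/-- the points of a shift -/
def unsh {a b : Sp0} {X : CF} (x : OnePoint (((sh a).obj X).obj b)) : OnePoint (X.obj (a ⊗ b)) :=
  x

@[simp] theorem unsh_infty {a b : Sp0} {X : CF} :
    unsh (∞ : OnePoint (((sh a).obj X).obj b)) = ∞ := rfl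

theorem unsh_act {a b c : Sp0} {X : CF} (w : b ⟶ c) (x : OnePoint (((sh a).obj X).obj b)) :
    unsh (((sh a).obj X).act w x) = X.act (a ◁ w) (unsh x) := rfl

theorem unsh_plot {a b : Sp0} {X : CF} {T : CH} {x : T → OnePoint (((sh a).obj X).obj b)}
    (hx : (((sh a).obj X).obj b).plot T x) : (X.obj (a ⊗ b)).plot T (fun t => unsh (x t)) := hx

variable (K : LC)

/-- evaluation `L ⊗ F (ℝ ⊗ K) ⟶ F K` on generators -/
noncomputable def evalBil : Bil (rep Sp0.gen) (jC.obj (RR ⊗ K)) (jC.obj K) where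
  toFun {a b} x z := (jC.obj K).act (unpr x ▷ b) (unsh (fn (shIso K).hom z))
  infty_left {a b} y := by
    rw [unpr_infty, Sp0.zero_whiskerRight, act_zero]
  infty_right {a b} x := by
    rw [fn_infty, unsh_infty, act_infty]
  nat {a b a' b'} u v x y := by
    rw [unpr_rep_act, fn_act, unsh_act, ← act_comp, ← act_comp]
    congr 1
    rw [comp_whiskerRight, tensorHom_def', whisker_exchange_assoc]
  plot {a b} T x y hx hy := act_plot _ (Sp0.plot_whiskerRight (unpr_plot hx) b)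
    (unsh_plot (fn_plot (shIso K).hom hy))

/-- evaluation `L ⊗ F (ℝ ⊗ K) ⟶ F K` -/
noncomputable def evalC : rep Sp0.gen ⊗ jC.obj (RR ⊗ K) ⟶ jC.obj K := tensorDesc (evalBil K)

theorem evalC_tm {a b : Sp0} (f : Sp0.gen ⟶ a) (z : OnePoint ((jC.obj (RR ⊗ K)).obj b)) :
    fn (evalC K) (tm (pr f) z) = (jC.obj K).act (f ▷ b) (unsh (fn (shIso K).hom z)) := by
  rw [evalC, tensorDesc_tm]
  change (jC.obj K).act (unpr (pr f) ▷ b) (unsh (fn (shIso K).hom z)) = _
  rw [unpr_pr]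

theorem evalC_tm_jm {a b : Sp0} (f : Sp0.gen ⟶ a) (r : OnePoint RR) (k : OnePoint K)
    (t : OnePoint b.s) :
    fn (evalC K) (tm (pr f) (jm (K := RR ⊗ K) (smash r k) t)) =
      jm (a := a ⊗ b) k (smash (LC.app f.hom r) t) := by
  rw [evalC_tm, fn_shIso_hom]
  refine (jC_act (f ▷ b) k (smash r t)).trans ?_
  exact congrArg (jm k) (LC.app_whiskerRight_smash f.hom b.s r t)

theorem evalC_bij (X : CF) :
    Function.Bijective (fun x : X ⟶ jC.obj (RR ⊗ K) => rep Sp0.gen ◁ x ≫ evalC K) := by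
  constructor
  · intro x x' h
    have h' : rep Sp0.gen ◁ x ≫ evalC K = rep Sp0.gen ◁ x' ≫ evalC K := h
    rw [← cancel_mono (shIso K).hom]
    apply hom_ext
    intro b ξ
    have := congrArg (fun g => fn g (tm (pr (𝟙 Sp0.gen)) ξ)) h'
    simp only [fn_comp, whiskerLeft_tm, evalC_tm, id_whiskerRight, act_id] at this
    exact this
  · intro g
    refine ⟨homMk (X := X) (Y := (sh Sp0.gen).obj (jC.obj K))
      (fun b ξ => fn g (tm (pr (𝟙 Sp0.gen)) ξ)) (fun b => by rw [tm_infty_right, fn_infty]; rfl)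
      (fun b T ξ hξ => fn_plot g (tm_plot (((rep Sp0.gen).obj _).plot_const _ _) hξ))
      (fun {b c} w ξ => by rw [← act_tm_right, fn_act, sh_act]) ≫ (shIso K).inv, ?_⟩
    apply tensor_ext
    intro a b x ξ
    obtain ⟨f, rfl⟩ := pr_surjective x
    rw [fn_comp, whiskerLeft_tm, evalC_tm, ← fn_comp, Category.assoc, Iso.inv_hom_id,
      Category.comp_id]
    change (jC.obj K).act (f ▷ b) (fn g (tm (pr (𝟙 Sp0.gen)) ξ)) = _
    rw [← fn_act, act_tm_left, rep_act, Category.id_comp]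

theorem fn_δ_jC {K K' : LC} (k : OnePoint K) (l : OnePoint K') :
    fn (Functor.OplaxMonoidal.δ jC K K') (jm (K := K ⊗ K') (smash k l) pu) =
      (jC.obj K ⊗ jC.obj K').act (λ_ (𝟙_ Sp0)).hom (tm (jm k pu) (jm l pu)) := by
  rw [Functor.OplaxMonoidal.comp_δ, fn_comp]
  refine (congrArg (fn _) (fn_F_map _ _ _)).trans ?_
  exact fn_muInv_pu (A := PQ.LCPQ.obj K) (B := PQ.LCPQ.obj K') k l

theorem jev_eq : jev jC (rep Sp0.gen) lamC K = evalC K := by
  apply FF_ext_right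
  intro z a x
  obtain ⟨f, rfl⟩ := pr_surjective x
  obtain ⟨⟨r, k⟩, rfl⟩ := Sp0.smash_surjective (X := RR) (Y := K) z
  refine Eq.trans ?_ (evalC_tm_jm K f r k pu).symm
  simp only [jev, fn_comp]
  rw [whiskerLeft_tm]
  refine (congrArg (fun z => fn (λ_ (jC.obj K)).hom (fn (lamC ▷ jC.obj K)
    (fn (α_ (rep Sp0.gen) (jC.obj RR) (jC.obj K)).inv (tm (pr f) z)))) (fn_δ_jC r k)).trans ?_
  rw [← act_tm_right, fn_act, fn_act, fn_act, associator_inv_tm, fn_act, fn_act,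
    whiskerRight_tm, lamC_tm, leftUnitor_tm, jC_act, jC_act, jC_act]
  change jm k (LC.app (a ◁ (λ_ (𝟙_ Sp0)).hom).hom (LC.app (α_ a (𝟙_ Sp0) (𝟙_ Sp0)).hom.hom
    (LC.app ((λ_ (𝟙_ Sp0)).inv ≫ spt (sp (Sp0.smp (LC.app f.hom r) pu)) ▷ 𝟙_ Sp0).hom pu))) = _
  rw [Sp0.comp_hom, LC.app_comp, Sp0.app_leftUnitor_inv, Sp0.app_whiskerRight_smp, app_spt_sp,
    Sp0.app_associator_smp, Sp0.app_whiskerLeft_smp, Sp0.app_leftUnitor_smp]
  rfl

end ev

end CF

end Vale.Agent.P251CA
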