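import Vale.Agent.P251CA.W0

/-!
# Orthogonal spectra: continuous functors on spheres

`CF` is the category of continuous (that is, `PQ`-enriched) functors from the category of spheres
`Sp0` to pointed quasi-topological spaces.  Continuity is a property of an ordinary functor.
This is the point-set model of spectra.
-/

open CategoryTheory MonoidalCategory Topology OnePoint

namespace Vale.Agent.P251CA

open Vale.Agent.P251.H

open Vale.Agent.P251.G (LC)
open Vale.Agent.P251.G.LC (smash smash_coe_coe smash_infty_left smash_infty_right)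

section Ptd

/-- the points of a pointed type different from the base point -/
abbrev NonBase (Q : Type) (q₀ : Q) : Type := {q : Q // q ≠ q₀}

/-- the canonical map from the pointed type `OnePoint (NonBase Q q₀)` to `Q` -/
def toQ {Q : Type} (q₀ : Q) (x : OnePoint (NonBase Q q₀)) : Q := x.elim q₀ (fun q => q.1)

open scoped Classical in
/-- the inverse of `toQ` -/
noncomputable def ofQ {Q : Type} (q₀ : Q) (q : Q) : OnePoint (NonBase Q q₀) :=
  if h : q = q₀ then ∞ else ((⟨q, h⟩ : NonBase Q q₀) : OnePoint (NonBase Q q₀))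

@[simp] theorem toQ_infty {Q : Type} (q₀ : Q) : toQ q₀ ∞ = q₀ := rfl

@[simp] theorem toQ_coe {Q : Type} (q₀ : Q) (q : NonBase Q q₀) :
    toQ q₀ (q : OnePoint (NonBase Q q₀)) = q.1 := rfl

@[simp] theorem ofQ_base {Q : Type} (q₀ : Q) : ofQ q₀ q₀ = ∞ := dif_pos rfl

@[simp] theorem toQ_ofQ {Q : Type} (q₀ q : Q) : toQ q₀ (ofQ q₀ q) = q := by
  unfold ofQ
  split_ifs with h
  · exact h.symm
  · rfl

@[simp] theorem ofQ_toQ {Q : Type} (q₀ : Q) (x : OnePoint (NonBase Q q₀)) :
    ofQ q₀ (toQ q₀ x) = x := by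
  induction x using OnePoint.rec with
  | infty => exact ofQ_base q₀
  | coe x => exact dif_neg x.2

theorem ofQ_surjective {Q : Type} (q₀ : Q) : Function.Surjective (ofQ q₀) :=
  fun x => ⟨_, ofQ_toQ q₀ x⟩

theorem ofQ_injective {Q : Type} (q₀ : Q) : Function.Injective (ofQ q₀) :=
  Function.LeftInverse.injective (toQ_ofQ q₀)

theorem ofQ_eq_infty {Q : Type} {q₀ q : Q} : ofQ q₀ q = ∞ ↔ q = q₀ := by
  rw [← ofQ_base q₀, (ofQ_injective q₀).eq_iff]

/-- The pointed quasi-topological space with underlying pointed type `(Q, q₀)` and plots generated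
by a class `G` of functions `K → Q`. -/
noncomputable abbrev PQ.ptd (Q : Type) (q₀ : Q) (G : ∀ K : CH, (K → Q) → Prop) : PQ :=
  PQ.gen (NonBase Q q₀) (fun K f => ∃ g : K → Q, G K g ∧ f = fun k => ofQ q₀ (g k))

theorem PQ.ptd_plot {Q : Type} {q₀ : Q} {G : ∀ K : CH, (K → Q) → Prop} {K : CH} {g : K → Q}
    (hg : G K g) : (PQ.ptd Q q₀ G).plot K (fun k => ofQ q₀ (g k)) :=
  PQ.Gen.base _ ⟨g, hg, rfl⟩

end Ptd

/-- A continuous functor from spheres to pointed quasi-topological spaces. -/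
structure CF where
  /-- the values -/
  obj : Sp0 → PQ
  /-- the action of morphisms -/
  map : ∀ {a b : Sp0}, (a ⟶ b) → (obj a ⟶ obj b)
  map_id : ∀ a, map (𝟙 a) = 𝟙 (obj a)
  map_comp : ∀ {a b c : Sp0} (f : a ⟶ b) (g : b ⟶ c), map (f ≫ g) = map f ≫ map g
  map_zero : ∀ a b : Sp0, map (0 : a ⟶ b) = 0
  map_plot : ∀ {a b : Sp0} (K : CH) (w : K → (a ⟶ b)) (x : K → OnePoint (obj a)),
    Sp0.plot K w → (obj a).plot K x → (obj b).plot K (fun k => PQ.app (map (w k)) (x k))

namespace CF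

/-- The action of a morphism of spheres on points. -/
def act (X : CF) {a b : Sp0} (w : a ⟶ b) (x : OnePoint (X.obj a)) : OnePoint (X.obj b) :=
  PQ.app (X.map w) x

section act

variable (X : CF) {a b c : Sp0}

theorem act_id (x : OnePoint (X.obj a)) : X.act (𝟙 a) x = x := by
  rw [act, X.map_id]; rfl

theorem act_comp (f : a ⟶ b) (g : b ⟶ c) (x : OnePoint (X.obj a)) :
    X.act (f ≫ g) x = X.act g (X.act f x) := by
  rw [act, X.map_comp]; rfl

@[simp] theorem act_zero (x : OnePoint (X.obj a)) : X.act (0 : a ⟶ b) x = ∞ := by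
  rw [act, X.map_zero]; rfl

@[simp] theorem act_infty (w : a ⟶ b) : X.act w ∞ = ∞ := PQ.app_infty _

theorem act_plot {K : CH} {w : K → (a ⟶ b)} {x : K → OnePoint (X.obj a)}
    (hw : Sp0.plot K w) (hx : (X.obj a).plot K x) :
    (X.obj b).plot K (fun k => X.act (w k) (x k)) := X.map_plot K w x hw hx

theorem act_plot' (w : a ⟶ b) {K : CH} {x : K → OnePoint (X.obj a)}
    (hx : (X.obj a).plot K x) : (X.obj b).plot K (fun k => X.act w (x k)) :=
  PQ.app_plot (X.map w) hx

theorem act_inv_hom (e : a ≅ b) (x : OnePoint (X.obj b)) :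
    X.act e.hom (X.act e.inv x) = x := by
  rw [← act_comp, e.inv_hom_id, act_id]

theorem act_hom_inv (e : a ≅ b) (x : OnePoint (X.obj a)) :
    X.act e.inv (X.act e.hom x) = x := by
  rw [← act_comp, e.hom_inv_id, act_id]

end act

/-- Natural transformations. -/
@[ext]
structure Hom (X Y : CF) where
  /-- the components -/
  app : ∀ a, X.obj a ⟶ Y.obj a
  naturality : ∀ {a b : Sp0} (w : a ⟶ b), X.map w ≫ app b = app a ≫ Y.map w

instance : Category CF where
  Hom := Hom
  id X := ⟨fun a => 𝟙 _, fun w => by rw [Category.comp_id, Category.id_comp]⟩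
  comp f g := ⟨fun a => f.app a ≫ g.app a, fun w => by
    rw [← Category.assoc, f.naturality, Category.assoc, g.naturality, Category.assoc]⟩

/-- the underlying functions of a morphism -/
def fn {X Y : CF} (f : X ⟶ Y) {a : Sp0} (x : OnePoint (X.obj a)) : OnePoint (Y.obj a) :=
  PQ.app (Hom.app f a) x

theorem fn_def {X Y : CF} (f : X ⟶ Y) {a : Sp0} (x : OnePoint (X.obj a)) :
    fn f x = PQ.app (Hom.app f a) x := rfl

@[simp] theorem fn_infty {X Y : CF} (f : X ⟶ Y) (a : Sp0) :
    fn f (∞ : OnePoint (X.obj a)) = ∞ := PQ.app_infty _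

@[simp] theorem fn_id (X : CF) {a : Sp0} (x : OnePoint (X.obj a)) : fn (𝟙 X) x = x := rfl

@[simp] theorem fn_comp {X Y Z : CF} (f : X ⟶ Y) (g : Y ⟶ Z) {a : Sp0}
    (x : OnePoint (X.obj a)) : fn (f ≫ g) x = fn g (fn f x) := rfl

theorem fn_act {X Y : CF} (f : X ⟶ Y) {a b : Sp0} (w : a ⟶ b) (x : OnePoint (X.obj a)) :
    fn f (X.act w x) = Y.act w (fn f x) :=
  congrArg (fun g : X.obj a ⟶ Y.obj b => PQ.app g x) (Hom.naturality f w)

theorem fn_plot {X Y : CF} (f : X ⟶ Y) {a : Sp0} {K : CH} {x : K → OnePoint (X.obj a)}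
    (hx : (X.obj a).plot K x) : (Y.obj a).plot K (fun k => fn f (x k)) :=
  PQ.app_plot (Hom.app f a) hx

theorem hom_ext {X Y : CF} {f g : X ⟶ Y}
    (h : ∀ (a : Sp0) (x : OnePoint (X.obj a)), fn f x = fn g x) : f = g := by
  apply Hom.ext
  funext a
  exact PQ.hom_ext' (h a)

theorem hom_ext' {X Y : CF} {f g : X ⟶ Y} (h : ∀ a, Hom.app f a = Hom.app g a) : f = g :=
  Hom.ext (funext h)

/-- Constructor for morphisms from functions on points. -/
def homMk {X Y : CF} (F : ∀ a, OnePoint (X.obj a) → OnePoint (Y.obj a))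
    (h0 : ∀ a, F a ∞ = ∞)
    (hp : ∀ (a : Sp0) (K : CH) (x : K → OnePoint (X.obj a)), (X.obj a).plot K x →
      (Y.obj a).plot K (fun k => F a (x k)))
    (hn : ∀ {a b : Sp0} (w : a ⟶ b) (x : OnePoint (X.obj a)),
      F b (X.act w x) = Y.act w (F a x)) : X ⟶ Y where
  app a := ⟨F a, h0 a, hp a⟩
  naturality w := PQ.hom_ext' (fun x => hn w x)

@[simp] theorem fn_homMk {X Y : CF} (F : ∀ a, OnePoint (X.obj a) → OnePoint (Y.obj a))
    (h0 : ∀ a, F a ∞ = ∞)
    (hp : ∀ (a : Sp0) (K : CH) (x : K → OnePoint (X.obj a)), (X.obj a).plot K x →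
      (Y.obj a).plot K (fun k => F a (x k)))
    (hn : ∀ {a b : Sp0} (w : a ⟶ b) (x : OnePoint (X.obj a)),
      F b (X.act w x) = Y.act w (F a x)) {a : Sp0} (x : OnePoint (X.obj a)) :
    fn (homMk F h0 hp hn) x = F a x := rfl

instance : Limits.HasZeroMorphisms CF where
  zero _ Y := ⟨homMk (fun _ _ => ∞) (fun _ => rfl) (fun a K _ _ => (Y.obj a).plot_const K ∞)
    (fun w _ => (Y.act_infty w).symm)⟩
  comp_zero _ _ := rfl
  zero_comp _ _ _ f := hom_ext (fun a _ => fn_infty f a)

@[simp] theorem fn_zero {X Y : CF} {a : Sp0} (x : OnePoint (X.obj a)) :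
    fn (0 : X ⟶ Y) x = ∞ := rfl

/-- Isomorphisms of continuous functors, from levelwise isomorphisms. -/
def isoMk {X Y : CF} (e : ∀ a, X.obj a ≅ Y.obj a)
    (h : ∀ {a b : Sp0} (w : a ⟶ b), X.map w ≫ (e b).hom = (e a).hom ≫ Y.map w) : X ≅ Y where
  hom := ⟨fun a => (e a).hom, h⟩
  inv := ⟨fun a => (e a).inv, fun {a b} w => by
    rw [← cancel_epi (e a).hom, ← Category.assoc, ← h, Category.assoc, Iso.hom_inv_id,
      Category.comp_id, Iso.hom_inv_id_assoc]⟩
  hom_inv_id := hom_ext' (fun a => (e a).hom_inv_id)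
  inv_hom_id := hom_ext' (fun a => (e a).inv_hom_id)

/-- evaluation at a sphere -/
@[simps] def ev (a : Sp0) : CF ⥤ PQ where
  obj X := X.obj a
  map f := Hom.app f a

/-- the underlying ordinary functor -/
@[simps] def toFunctor (X : CF) : Sp0 ⥤ PQ where
  obj := X.obj
  map := X.map
  map_id := X.map_id
  map_comp := X.map_comp

/-- the fully faithful functor to ordinary functors -/
@[simps] def incl : CF ⥤ (Sp0 ⥤ PQ) where
  obj := toFunctor
  map f := { app := fun a => Hom.app f a, naturality := fun _ _ w => Hom.naturality f w }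

/-- `incl` is fully faithful. -/
def inclFullyFaithful : incl.FullyFaithful where
  preimage f := ⟨fun a => f.app a, fun w => f.naturality w⟩

instance : incl.Full := inclFullyFaithful.full
instance : incl.Faithful := inclFullyFaithful.faithful

/-- The sphere spectrum: `a ↦ s a`. -/
def sphere : CF where
  obj a := PQ.ofLC a.s
  map w := ⟨LC.app w.hom, LC.app_infty _, fun _ _ hf => (LC.continuous_app w.hom).comp hf⟩
  map_id _ := rfl
  map_comp _ _ := rfl
  map_zero _ _ := rfl
  map_plot _ _ _ hw hx := hw.comp (continuous_id.prodMk hx)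

theorem sphere_obj (a : Sp0) : sphere.obj a = PQ.ofLC a.s := rfl

theorem sphere_act {a b : Sp0} (w : a ⟶ b) (x : OnePoint a.s) :
    sphere.act w x = LC.app w.hom x := rfl

theorem pt_act {a b : Sp0} (w : a ⟶ b) (x : OnePoint (sphere.obj a)) :
    Sp0.pt (sphere.act w x) = Sp0.pt x ≫ w := (Sp0.pt_comp x w).symm

end CF

end Vale.Agent.P251CA
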