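import Vale.Agent.P251CA.CF

/-!
# Orthogonal spectra: the tensor product of continuous functors (Day convolution)

`day X Y` is the tensor product of two continuous functors.  Its value at `c` consists of the
classes `br w x y` with `w : a ⊗ b ⟶ c`, `x` a point of `X a` and `y` a point of `Y b`, subject to
`br ((u ⊗ v) ≫ w) x y = br w (u x) (v y)`.  The generators are `bt x y = br (𝟙 _) x y`.
-/

open CategoryTheory MonoidalCategory Topology OnePoint

namespace Vale.Agent.P251CA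

open Vale.Agent.P251.H

open Vale.Agent.P251.G (LC)

namespace CF

section raw

/-- Representatives of points of the tensor product. -/
structure DayRaw (X Y : CF) (c : Sp0) where
  /-- first index -/
  a : Sp0
  /-- second index -/
  b : Sp0
  /-- the morphism -/
  w : a ⊗ b ⟶ c
  /-- first point -/
  x : OnePoint (X.obj a)
  /-- second point -/
  y : OnePoint (Y.obj b)

/-- The relation defining the tensor product. -/
inductive DayRel (X Y : CF) (c : Sp0) : DayRaw X Y c → DayRaw X Y c → Prop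
  | nat {a b a' b' : Sp0} (u : a ⟶ a') (v : b ⟶ b') (w : a' ⊗ b' ⟶ c)
      (x : OnePoint (X.obj a)) (y : OnePoint (Y.obj b)) :
      DayRel X Y c ⟨a, b, (u ⊗ₘ v) ≫ w, x, y⟩ ⟨a', b', w, X.act u x, Y.act v y⟩
  | left {a b a' b' : Sp0} (w : a ⊗ b ⟶ c) (w' : a' ⊗ b' ⟶ c) (y : OnePoint (Y.obj b))
      (y' : OnePoint (Y.obj b')) : DayRel X Y c ⟨a, b, w, ∞, y⟩ ⟨a', b', w', ∞, y'⟩
  | right {a b : Sp0} (w : a ⊗ b ⟶ c) (x : OnePoint (X.obj a)) :
      DayRel X Y c ⟨a, b, w, x, ∞⟩ ⟨a, b, w, ∞, ∞⟩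

/-- The pointed set of the tensor product. -/
def DayQ (X Y : CF) (c : Sp0) : Type := Quot (DayRel X Y c)

/-- the class of a representative -/
def DayQ.mk {X Y : CF} {a b c : Sp0} (w : a ⊗ b ⟶ c) (x : OnePoint (X.obj a))
    (y : OnePoint (Y.obj b)) : DayQ X Y c := Quot.mk _ ⟨a, b, w, x, y⟩

/-- the base point -/
def DayQ.base (X Y : CF) (c : Sp0) : DayQ X Y c :=
  DayQ.mk (a := 𝟙_ Sp0) (b := 𝟙_ Sp0) 0 ∞ ∞

/-- The value of the tensor product at `c`. -/
noncomputable def dayObj (X Y : CF) (c : Sp0) : PQ :=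
  PQ.ptd (DayQ X Y c) (DayQ.base X Y c) (fun K f =>
    ∃ (a b : Sp0) (w : K → (a ⊗ b ⟶ c)) (x : K → OnePoint (X.obj a))
      (y : K → OnePoint (Y.obj b)), Sp0.plot K w ∧ (X.obj a).plot K x ∧ (Y.obj b).plot K y ∧
        f = fun k => DayQ.mk (w k) (x k) (y k))

/-- The point `[w; x, y]` of the tensor product. -/
noncomputable def br {X Y : CF} {a b c : Sp0} (w : a ⊗ b ⟶ c) (x : OnePoint (X.obj a))
    (y : OnePoint (Y.obj b)) : OnePoint (dayObj X Y c) :=
  ofQ (DayQ.base X Y c) (DayQ.mk w x y)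

variable {X Y Z : CF} {a b c d a' b' : Sp0}

theorem br_nat (u : a ⟶ a') (v : b ⟶ b') (w : a' ⊗ b' ⟶ c) (x : OnePoint (X.obj a))
    (y : OnePoint (Y.obj b)) : br ((u ⊗ₘ v) ≫ w) x y = br w (X.act u x) (Y.act v y) :=
  congrArg (ofQ (DayQ.base X Y c)) (Quot.sound (DayRel.nat u v w x y))

@[simp] theorem br_infty_left (w : a ⊗ b ⟶ c) (y : OnePoint (Y.obj b)) :
    br w (∞ : OnePoint (X.obj a)) y = ∞ :=
  ofQ_eq_infty.mpr (Quot.sound (DayRel.left w 0 y ∞))

@[simp] theorem br_infty_right (w : a ⊗ b ⟶ c) (x : OnePoint (X.obj a)) :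
    br w x (∞ : OnePoint (Y.obj b)) = ∞ :=
  ofQ_eq_infty.mpr ((Quot.sound (DayRel.right w x)).trans (Quot.sound (DayRel.left w 0 ∞ ∞)))

@[simp] theorem br_zero (x : OnePoint (X.obj a)) (y : OnePoint (Y.obj b)) :
    br (0 : a ⊗ b ⟶ c) x y = ∞ := by
  have h := br_nat (0 : a ⟶ a) (𝟙 b) (0 : a ⊗ b ⟶ c) x y
  rw [Limits.comp_zero, act_zero, br_infty_left] at h
  exact h

theorem exists_br (z : OnePoint (dayObj X Y c)) :
    ∃ (a b : Sp0) (w : a ⊗ b ⟶ c) (x : OnePoint (X.obj a)) (y : OnePoint (Y.obj b)),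
      z = br w x y := by
  obtain ⟨q, rfl⟩ := ofQ_surjective (DayQ.base X Y c) z
  obtain ⟨⟨a, b, w, x, y⟩, rfl⟩ := Quot.exists_rep q
  exact ⟨a, b, w, x, y, rfl⟩

theorem br_plot {K : CH} {w : K → (a ⊗ b ⟶ c)} {x : K → OnePoint (X.obj a)}
    {y : K → OnePoint (Y.obj b)} (hw : Sp0.plot K w) (hx : (X.obj a).plot K x)
    (hy : (Y.obj b).plot K y) : (dayObj X Y c).plot K (fun k => br (w k) (x k) (y k)) :=
  PQ.ptd_plot (G := fun K f => ∃ (a b : Sp0) (w : K → (a ⊗ b ⟶ c)) (x : K → OnePoint (X.obj a))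
      (y : K → OnePoint (Y.obj b)), Sp0.plot K w ∧ (X.obj a).plot K x ∧ (Y.obj b).plot K y ∧
        f = fun k => DayQ.mk (w k) (x k) (y k)) ⟨a, b, w, x, y, hw, hx, hy, rfl⟩

/-- Compatible families: the data needed to define a function out of the tensor product. -/
structure DayFam (X Y : CF) (c : Sp0) (P : Type) (p₀ : P) where
  /-- the value on `[w; x, y]` -/
  F : ∀ {a b : Sp0}, (a ⊗ b ⟶ c) → OnePoint (X.obj a) → OnePoint (Y.obj b) → P
  h1 : ∀ {a b : Sp0} (w : a ⊗ b ⟶ c) (y : OnePoint (Y.obj b)),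
      F w (∞ : OnePoint (X.obj a)) y = p₀
  h2 : ∀ {a b : Sp0} (w : a ⊗ b ⟶ c) (x : OnePoint (X.obj a)),
      F w x (∞ : OnePoint (Y.obj b)) = p₀
  h3 : ∀ {a b a' b' : Sp0} (u : a ⟶ a') (v : b ⟶ b') (w : a' ⊗ b' ⟶ c)
      (x : OnePoint (X.obj a)) (y : OnePoint (Y.obj b)),
      F ((u ⊗ₘ v) ≫ w) x y = F w (X.act u x) (Y.act v y)

section elim

variable {P : Type} {p₀ : P} (Φ : DayFam X Y c P p₀)

/-- Functions out of the pointed set of the tensor product. -/
def DayQ.lift : DayQ X Y c → P :=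
  Quot.lift (fun r : DayRaw X Y c => Φ.F r.w r.x r.y) (by
    rintro _ _ (⟨u, v, w, x, y⟩ | ⟨w, w', y, y'⟩ | ⟨w, x⟩)
    · exact Φ.h3 u v w x y
    · exact (Φ.h1 w y).trans (Φ.h1 w' y').symm
    · exact (Φ.h2 w x).trans (Φ.h1 w ∞).symm)

theorem DayQ.lift_mk (w : a ⊗ b ⟶ c) (x : OnePoint (X.obj a)) (y : OnePoint (Y.obj b)) :
    DayQ.lift Φ (DayQ.mk w x y) = Φ.F w x y := rfl

/-- Functions out of the tensor product at the level of points. -/
def dayElim (z : OnePoint (dayObj X Y c)) : P := DayQ.lift Φ (toQ (DayQ.base X Y c) z)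

@[simp] theorem dayElim_br (w : a ⊗ b ⟶ c) (x : OnePoint (X.obj a)) (y : OnePoint (Y.obj b)) :
    dayElim Φ (br w x y) = Φ.F w x y := by
  unfold dayElim br
  rw [toQ_ofQ, DayQ.lift_mk]

@[simp] theorem dayElim_infty : dayElim Φ ∞ = p₀ := by
  rw [← br_infty_left (0 : 𝟙_ Sp0 ⊗ 𝟙_ Sp0 ⟶ c) (∞ : OnePoint (Y.obj (𝟙_ Sp0))), dayElim_br]
  exact Φ.h1 _ _

end elim

/-- Plots of the tensor product may be tested on the generating ones. -/
theorem day_plot {W : PQ} (F : OnePoint (dayObj X Y c) → OnePoint W)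
    (h : ∀ (K : CH) (a b : Sp0) (w : K → (a ⊗ b ⟶ c)) (x : K → OnePoint (X.obj a))
      (y : K → OnePoint (Y.obj b)), Sp0.plot K w → (X.obj a).plot K x → (Y.obj b).plot K y →
      W.plot K (fun k => F (br (w k) (x k) (y k)))) {K : CH} {z : K → OnePoint (dayObj X Y c)}
    (hz : (dayObj X Y c).plot K z) : W.plot K (fun k => F (z k)) := by
  refine PQ.gen_plot_map (Y := W) F ?_ hz
  rintro K f ⟨g, ⟨a, b, w, x, y, hw, hx, hy, rfl⟩, rfl⟩
  exact h K a b w x y hw hx hy

/-- Plots of the tensor product may be tested on the generating ones, jointly with a parameter. -/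
theorem day_plot_left {W : PQ} {P : Type} (F : OnePoint (dayObj X Y c) → P → OnePoint W)
    (PP : ∀ K : CH, (K → P) → Prop)
    (hPP : ∀ {K L : CH} (g : L → K) (p : K → P), Continuous g → PP K p → PP L (fun l => p (g l)))
    (h : ∀ (K : CH) (a b : Sp0) (w : K → (a ⊗ b ⟶ c)) (x : K → OnePoint (X.obj a))
      (y : K → OnePoint (Y.obj b)) (p : K → P), Sp0.plot K w → (X.obj a).plot K x →
      (Y.obj b).plot K y → PP K p → W.plot K (fun k => F (br (w k) (x k) (y k)) (p k)))
    {K : CH} {z : K → OnePoint (dayObj X Y c)} (hz : (dayObj X Y c).plot K z) {p : K → P}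
    (hp : PP K p) : W.plot K (fun k => F (z k) (p k)) := by
  have key := PQ.gen_prod_left (Y := W) K (fun z k => F z (p k)) (fun z => by
      obtain ⟨a, b, w, x, y, rfl⟩ := exists_br z
      exact h K a b (fun _ => w) (fun _ => x) (fun _ => y) p (Sp0.plot_const K w)
        ((X.obj a).plot_const K x) ((Y.obj b).plot_const K y) hp) (by
      rintro K' f ⟨g, ⟨a, b, w, x, y, hw, hx, hy, rfl⟩, rfl⟩
      exact h (CH.prod K' K) a b (fun q => w q.1) (fun q => x q.1) (fun q => y q.1)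
        (fun q => p q.2) (Sp0.plot_pre (K := K') (L := CH.prod K' K) _ continuous_fst hw)
        ((X.obj a).plot_comp (L := CH.prod K' K) _ x continuous_fst hx)
        ((Y.obj b).plot_comp (L := CH.prod K' K) _ y continuous_fst hy)
        (hPP (K := K) (L := CH.prod K' K) _ p continuous_snd hp)) hz
  exact W.plot_comp (K := CH.prod K K) (L := K) (fun k => (k, k)) _ (by fun_prop) key

end raw

section day

variable (X Y : CF)

/-- the action on points of the tensor product -/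
noncomputable def dayAct {X Y : CF} {c d : Sp0} (v : c ⟶ d) :
    OnePoint (dayObj X Y c) → OnePoint (dayObj X Y d) :=
  dayElim (p₀ := ∞)
    { F := fun w x y => br (w ≫ v) x y
      h1 := fun _ _ => br_infty_left _ _
      h2 := fun _ _ => br_infty_right _ _
      h3 := fun u v' w x y => by rw [Category.assoc, br_nat] }

@[simp] theorem dayAct_br {X Y : CF} {a b c d : Sp0} (v : c ⟶ d) (w : a ⊗ b ⟶ c)
    (x : OnePoint (X.obj a)) (y : OnePoint (Y.obj b)) :
    dayAct v (br w x y) = br (w ≫ v) x y := dayElim_br _ _ _ _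

@[simp] theorem dayAct_infty {X Y : CF} {c d : Sp0} (v : c ⟶ d) :
    dayAct v (∞ : OnePoint (dayObj X Y c)) = ∞ := dayElim_infty _

theorem dayAct_plot {X Y : CF} {c d : Sp0} {K : CH} {v : K → (c ⟶ d)}
    {z : K → OnePoint (dayObj X Y c)} (hv : Sp0.plot K v) (hz : (dayObj X Y c).plot K z) :
    (dayObj X Y d).plot K (fun k => dayAct (v k) (z k)) := by
  refine day_plot_left (W := dayObj X Y d) (fun z v => dayAct v z)
    (fun K (v : K → (c ⟶ d)) => Sp0.plot K v) (fun g p hg hp => Sp0.plot_pre g hg hp)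
    ?_ hz hv
  intro K a b w x y v hw hx hy hv
  simp_rw [dayAct_br]
  exact br_plot (Sp0.plot_comp hw hv) hx hy

/-- The tensor product of continuous functors. -/
noncomputable def day : CF where
  obj := dayObj X Y
  map v := ⟨dayAct v, dayAct_infty v, fun _ _ hz => dayAct_plot (Sp0.plot_const _ v) hz⟩
  map_id c := PQ.hom_ext' (fun z => by
    obtain ⟨a, b, w, x, y, rfl⟩ := exists_br z
    exact (dayAct_br _ _ _ _).trans (by rw [Category.comp_id]; rfl))
  map_comp f g := PQ.hom_ext' (fun z => by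
    obtain ⟨a, b, w, x, y, rfl⟩ := exists_br z
    change dayAct (f ≫ g) (br w x y) = dayAct g (dayAct f (br w x y))
    rw [dayAct_br, dayAct_br, dayAct_br, Category.assoc])
  map_zero c d := PQ.hom_ext' (fun z => by
    obtain ⟨a, b, w, x, y, rfl⟩ := exists_br z
    exact (dayAct_br _ _ _ _).trans (by rw [Limits.comp_zero, br_zero]; rfl))
  map_plot K w x hw hx := dayAct_plot hw hx

variable {X Y}
variable {Z : CF} {a b c d a' b' : Sp0}

theorem day_obj : (day X Y).obj c = dayObj X Y c := rfl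

theorem day_act_br (v : c ⟶ d) (w : a ⊗ b ⟶ c) (x : OnePoint (X.obj a))
    (y : OnePoint (Y.obj b)) : (day X Y).act v (br w x y) = br (w ≫ v) x y :=
  dayAct_br _ _ _ _

/-- The generators of the tensor product. -/
noncomputable def bt (x : OnePoint (X.obj a)) (y : OnePoint (Y.obj b)) :
    OnePoint ((day X Y).obj (a ⊗ b)) := br (𝟙 _) x y

theorem br_eq (w : a ⊗ b ⟶ c) (x : OnePoint (X.obj a)) (y : OnePoint (Y.obj b)) :
    br w x y = (day X Y).act w (bt x y) := by
  rw [bt, day_act_br, Category.id_comp]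

@[simp] theorem bt_infty_left (y : OnePoint (Y.obj b)) :
    bt (∞ : OnePoint (X.obj a)) y = ∞ := br_infty_left _ _

@[simp] theorem bt_infty_right (x : OnePoint (X.obj a)) :
    bt x (∞ : OnePoint (Y.obj b)) = ∞ := br_infty_right _ _

theorem act_bt (u : a ⟶ a') (v : b ⟶ b') (x : OnePoint (X.obj a)) (y : OnePoint (Y.obj b)) :
    (day X Y).act (u ⊗ₘ v) (bt x y) = bt (X.act u x) (Y.act v y) := by
  rw [← br_eq, ← Category.comp_id (u ⊗ₘ v), br_nat]; rfl

theorem act_bt_left (u : a ⟶ a') (x : OnePoint (X.obj a)) (y : OnePoint (Y.obj b)) :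
    (day X Y).act (u ▷ b) (bt x y) = bt (X.act u x) y := by
  rw [← tensorHom_id, act_bt, act_id]

theorem act_bt_right (v : b ⟶ b') (x : OnePoint (X.obj a)) (y : OnePoint (Y.obj b)) :
    (day X Y).act (a ◁ v) (bt x y) = bt x (Y.act v y) := by
  rw [← id_tensorHom, act_bt, act_id]

theorem exists_bt (z : OnePoint ((day X Y).obj c)) :
    ∃ (a b : Sp0) (w : a ⊗ b ⟶ c) (x : OnePoint (X.obj a)) (y : OnePoint (Y.obj b)),
      z = (day X Y).act w (bt x y) := by
  obtain ⟨a, b, w, x, y, rfl⟩ := exists_br z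
  exact ⟨a, b, w, x, y, br_eq w x y⟩

theorem bt_plot {K : CH} {x : K → OnePoint (X.obj a)} {y : K → OnePoint (Y.obj b)}
    (hx : (X.obj a).plot K x) (hy : (Y.obj b).plot K y) :
    ((day X Y).obj (a ⊗ b)).plot K (fun k => bt (x k) (y k)) :=
  br_plot (Sp0.plot_const K _) hx hy

/-- Morphisms out of the tensor product are determined on generators. -/
theorem day_ext {f g : day X Y ⟶ Z}
    (h : ∀ (a b : Sp0) (x : OnePoint (X.obj a)) (y : OnePoint (Y.obj b)),
      fn f (bt x y) = fn g (bt x y)) : f = g := by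
  apply hom_ext
  intro c z
  obtain ⟨a, b, w, x, y, rfl⟩ := exists_bt z
  rw [fn_act, fn_act, h]

end day

/-- Bilinear morphisms. -/
@[ext]
structure Bil (X Y Z : CF) where
  /-- the function -/
  toFun : ∀ {a b : Sp0}, OnePoint (X.obj a) → OnePoint (Y.obj b) → OnePoint (Z.obj (a ⊗ b))
  infty_left : ∀ {a b : Sp0} (y : OnePoint (Y.obj b)), toFun (∞ : OnePoint (X.obj a)) y = ∞
  infty_right : ∀ {a b : Sp0} (x : OnePoint (X.obj a)), toFun x (∞ : OnePoint (Y.obj b)) = ∞
  nat : ∀ {a b a' b' : Sp0} (u : a ⟶ a') (v : b ⟶ b') (x : OnePoint (X.obj a))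
    (y : OnePoint (Y.obj b)), toFun (X.act u x) (Y.act v y) = Z.act (u ⊗ₘ v) (toFun x y)
  plot : ∀ {a b : Sp0} {K : CH} {x : K → OnePoint (X.obj a)} {y : K → OnePoint (Y.obj b)},
    (X.obj a).plot K x → (Y.obj b).plot K y →
      (Z.obj (a ⊗ b)).plot K (fun k => toFun (x k) (y k))

section desc

variable {X Y Z : CF} {a b c : Sp0}

/-- The compatible family of a bilinear morphism. -/
@[simps] def Bil.fam (φ : Bil X Y Z) (c : Sp0) : DayFam X Y c (OnePoint (Z.obj c)) ∞ where
  F w x y := Z.act w (φ.toFun x y)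
  h1 w y := by rw [φ.infty_left, act_infty]
  h2 w x := by rw [φ.infty_right, act_infty]
  h3 u v w x y := by rw [φ.nat, act_comp]

/-- The morphism given by a bilinear morphism. -/
noncomputable def desc (φ : Bil X Y Z) : day X Y ⟶ Z :=
  homMk (X := day X Y) (fun c => dayElim (φ.fam c)) (fun c => dayElim_infty _)
    (fun c K z hz => day_plot (W := Z.obj c) _ (fun K a b w x y hw hx hy => by
      simp_rw [dayElim_br]
      exact Z.act_plot hw (φ.plot hx hy)) hz)
    (fun {c d} v z => by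
      obtain ⟨a, b, w, x, y, rfl⟩ := exists_br z
      rw [day_act_br, dayElim_br, dayElim_br]
      exact Z.act_comp _ _ _)

theorem fn_desc_br (φ : Bil X Y Z) (w : a ⊗ b ⟶ c) (x : OnePoint (X.obj a))
    (y : OnePoint (Y.obj b)) : fn (desc φ) (br w x y) = Z.act w (φ.toFun x y) :=
  dayElim_br (φ.fam c) w x y

@[simp] theorem fn_desc (φ : Bil X Y Z) (x : OnePoint (X.obj a)) (y : OnePoint (Y.obj b)) :
    fn (desc φ) (bt x y) = φ.toFun x y := by
  rw [bt]
  refine (fn_desc_br φ (𝟙 _) x y).trans ?_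
  rw [act_id]

/-- The bilinear morphism of a morphism. -/
@[simps] noncomputable def Bil.ofHom (f : day X Y ⟶ Z) : Bil X Y Z where
  toFun x y := fn f (bt x y)
  infty_left y := by rw [bt_infty_left, fn_infty]
  infty_right x := by rw [bt_infty_right, fn_infty]
  nat u v x y := by rw [← act_bt, fn_act]
  plot hx hy := fn_plot f (bt_plot hx hy)

/-- The universal property of the tensor product. -/
noncomputable def descEquiv : (day X Y ⟶ Z) ≃ Bil X Y Z where
  toFun := Bil.ofHom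
  invFun := desc
  left_inv f := day_ext (fun a b x y => by rw [fn_desc]; rfl)
  right_inv φ := by
    ext a b x y
    exact fn_desc φ x y

end desc

end CF

end Vale.Agent.P251CA
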