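import Vale.Agent.P251CA.CFRep
import Vale.Agent.P251CA.DayMon

/-!
# Orthogonal spectra: the free functor `F : PQ ⥤ CF` is a braided strong monoidal functor
-/

open CategoryTheory MonoidalCategory Topology OnePoint

namespace Vale.Agent.P251CA

open Vale.Agent.P251.H

open Vale.Agent.P251.G (LC)
open Vale.Agent.P251.G.LC (smash smash_coe_coe smash_infty_left smash_infty_right)

namespace PQ

open Vale.Agent.P251.H.PQ

variable {A B C D : PQ}

/-- the point of a tensor product given by two points -/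
def kp (x : OnePoint A) (y : OnePoint B) : OnePoint ((A ⊗ B : PQ)) := smash x y

/-- the nonbase point of the unit -/
def kpu : OnePoint ((𝟙_ PQ : PQ)) := ((() : Unit) : OnePoint Unit)

@[simp] theorem kp_infty_left (y : OnePoint B) : kp (∞ : OnePoint A) y = ∞ := smash_infty_left _
@[simp] theorem kp_infty_right (x : OnePoint A) : kp x (∞ : OnePoint B) = ∞ :=
  smash_infty_right _

theorem kp_surjective (z : OnePoint ((A ⊗ B : PQ))) :
    ∃ (x : OnePoint A) (y : OnePoint B), z = kp x y := by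
  obtain ⟨⟨x, y⟩, h⟩ := Sp0.smash_surjective (X := A) (Y := B) z
  exact ⟨x, y, h.symm⟩

theorem app_tensorHom_kp (f : A ⟶ C) (g : B ⟶ D) (x : OnePoint A) (y : OnePoint B) :
    app (f ⊗ₘ g) (kp x y) = kp (app f x) (app g y) := app_tensorHom_smash f g x y

theorem app_whiskerLeft_kp (f : B ⟶ D) (x : OnePoint A) (y : OnePoint B) :
    app (A ◁ f) (kp x y) = kp x (app f y) := app_whiskerLeft_smash A f x y

theorem app_whiskerRight_kp (f : A ⟶ C) (x : OnePoint A) (y : OnePoint B) :
    app (f ▷ B) (kp x y) = kp (app f x) y := app_whiskerRight_smash f B x y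

theorem app_associator_kp (x : OnePoint A) (y : OnePoint B) (z : OnePoint C) :
    app (α_ A B C).hom (kp (kp x y) z) = kp x (kp y z) := app_associator_smash A B C x y z

theorem app_associator_inv_kp (x : OnePoint A) (y : OnePoint B) (z : OnePoint C) :
    app (α_ A B C).inv (kp x (kp y z)) = kp (kp x y) z := app_associator_inv_smash A B C x y z

theorem app_braiding_kp (x : OnePoint A) (y : OnePoint B) :
    app (β_ A B).hom (kp x y) = kp y x := app_braiding_smash A B x y

theorem app_leftUnitor_kp (x : OnePoint A) :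
    app (λ_ A).hom (kp kpu x) = x := app_leftUnitor_smash A x

theorem app_rightUnitor_kp (x : OnePoint A) :
    app (ρ_ A).hom (kp x kpu) = x := app_rightUnitor_smash A x

/-- the middle four exchange on points -/
theorem app_tensorμ_kp (x : OnePoint A) (y : OnePoint B) (z : OnePoint C)
    (w : OnePoint D) :
    app (tensorμ A B C D) (kp (kp x y) (kp z w)) = kp (kp x z) (kp y w) := by
  simp only [tensorμ, app_comp]
  rw [app_associator_kp, app_whiskerLeft_kp, app_associator_inv_kp,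
    app_whiskerLeft_kp, app_whiskerRight_kp, app_braiding_kp, app_whiskerLeft_kp,
    app_associator_kp, app_associator_inv_kp]

theorem kp_plot {K : CH} {x : K → OnePoint A} {y : K → OnePoint B} (hx : A.plot K x)
    (hy : B.plot K y) : (A ⊗ B).plot K fun k => kp (x k) (y k) := tensor_plot _ _ hx hy

end PQ

namespace Sp0

variable {a b c d : Sp0}

/-- the point of a product sphere given by two points -/
def smp (x : OnePoint a.s) (y : OnePoint b.s) : OnePoint (a ⊗ b).s := smash x y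

@[simp] theorem smp_infty_left (y : OnePoint b.s) : smp (∞ : OnePoint a.s) y = ∞ :=
  smash_infty_left _
@[simp] theorem smp_infty_right (x : OnePoint a.s) : smp x (∞ : OnePoint b.s) = ∞ :=
  smash_infty_right _

theorem app_tensorHom_smp (f : a ⟶ c) (g : b ⟶ d) (x : OnePoint a.s) (y : OnePoint b.s) :
    LC.app (f ⊗ₘ g).hom (smp x y) = smp (LC.app f.hom x) (LC.app g.hom y) :=
  LC.app_tensorHom_smash f.hom g.hom x y

theorem app_associator_smp (x : OnePoint a.s) (y : OnePoint b.s) (z : OnePoint c.s) :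
    LC.app (α_ a b c).hom.hom (smp (smp x y) z) = smp x (smp y z) :=
  LC.app_associator_smash a.s b.s c.s x y z

theorem app_braiding_smp (x : OnePoint a.s) (y : OnePoint b.s) :
    LC.app (β_ a b).hom.hom (smp x y) = smp y x := LC.app_braiding_smash a.s b.s x y

theorem app_leftUnitor_smp (x : OnePoint a.s) :
    LC.app (λ_ a).hom.hom (smp CF.pu x) = x := LC.app_leftUnitor_smash a.s x

theorem app_rightUnitor_smp (x : OnePoint a.s) :
    LC.app (ρ_ a).hom.hom (smp x CF.pu) = x := LC.app_rightUnitor_smash a.s x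

theorem app_leftUnitor_inv (x : OnePoint a.s) :
    LC.app (λ_ a).inv.hom x = smp CF.pu x := by
  have h := congrArg (LC.app (λ_ a).inv.hom) (app_leftUnitor_smp x)
  rw [← h, ← LC.app_comp, ← comp_hom, Iso.hom_inv_id, id_hom, LC.app_id]

theorem app_rightUnitor_inv (x : OnePoint a.s) :
    LC.app (ρ_ a).inv.hom x = smp x CF.pu := by
  have h := congrArg (LC.app (ρ_ a).inv.hom) (app_rightUnitor_smp x)
  rw [← h, ← LC.app_comp, ← comp_hom, Iso.hom_inv_id, id_hom, LC.app_id]

theorem app_associator_inv_smp (x : OnePoint a.s) (y : OnePoint b.s) (z : OnePoint c.s) :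
    LC.app (α_ a b c).inv.hom (smp x (smp y z)) = smp (smp x y) z := by
  rw [← app_associator_smp x y z, ← LC.app_comp, ← comp_hom, Iso.hom_inv_id, id_hom, LC.app_id]

theorem app_whiskerRight_smp (f : a ⟶ c) (x : OnePoint a.s) (y : OnePoint b.s) :
    LC.app (f ▷ b).hom (smp x y) = smp (LC.app f.hom x) y :=
  LC.app_whiskerRight_smash f.hom b.s x y

theorem app_whiskerLeft_smp (f : b ⟶ c) (x : OnePoint a.s) (y : OnePoint b.s) :
    LC.app (a ◁ f).hom (smp x y) = smp x (LC.app f.hom y) :=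
  LC.app_whiskerLeft_smash a.s f.hom x y

theorem pt_smp_pu : Sp0.pt (a := 𝟙_ Sp0 ⊗ 𝟙_ Sp0) (smp CF.pu CF.pu) = (λ_ (𝟙_ Sp0)).inv :=
  Sp0.hom_ext_one rfl

end Sp0

namespace CF

open Sp0 (smp)
open PQ (kp kpu)

variable {A B C : PQ} {a b c : Sp0}

/-- Maps out of `F A ⊗ F B` are determined by the values on the generators. -/
theorem FF_ext {Z : CF} {f g : F.obj A ⊗ F.obj B ⟶ Z}
    (h : ∀ (k : OnePoint A) (l : OnePoint B),
      fn f (tm (fm k pu) (fm l pu)) = fn g (tm (fm k pu) (fm l pu))) : f = g := by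
  apply tensor_ext
  intro a b x y
  obtain ⟨k, x, rfl⟩ := fm_surjective x
  obtain ⟨l, y, rfl⟩ := fm_surjective y
  rw [fm_eq_act k x, fm_eq_act l y, ← act_tm, fn_act, fn_act, h]

/-- Maps out of `(F A ⊗ F B) ⊗ F C` are determined by the values on the generators. -/
theorem FFF_ext {Z : CF} {f g : (F.obj A ⊗ F.obj B) ⊗ F.obj C ⟶ Z}
    (h : ∀ (k : OnePoint A) (l : OnePoint B) (m : OnePoint C),
      fn f (tm (tm (fm k pu) (fm l pu)) (fm m pu)) =
        fn g (tm (tm (fm k pu) (fm l pu)) (fm m pu))) : f = g := by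
  apply tensor_ext₃
  intro a b c x y z
  obtain ⟨k, x, rfl⟩ := fm_surjective x
  obtain ⟨l, y, rfl⟩ := fm_surjective y
  obtain ⟨m, z, rfl⟩ := fm_surjective z
  rw [fm_eq_act k x, fm_eq_act l y, fm_eq_act m z, ← act_tm, ← act_tm, fn_act, fn_act, h]

theorem FF_ext_left {X Z : CF} {f g : F.obj A ⊗ X ⟶ Z}
    (h : ∀ (k : OnePoint A) (a : Sp0) (x : OnePoint (X.obj a)),
      fn f (tm (fm k pu) x) = fn g (tm (fm k pu) x)) : f = g := by
  apply tensor_ext
  intro a b x y
  obtain ⟨k, x, rfl⟩ := fm_surjective x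
  rw [fm_eq_act k x, ← act_tm_left, fn_act, fn_act, h]

theorem FF_ext_right {X Z : CF} {f g : X ⊗ F.obj A ⟶ Z}
    (h : ∀ (k : OnePoint A) (a : Sp0) (x : OnePoint (X.obj a)),
      fn f (tm x (fm k pu)) = fn g (tm x (fm k pu))) : f = g := by
  apply tensor_ext
  intro a b x y
  obtain ⟨k, y, rfl⟩ := fm_surjective y
  rw [fm_eq_act k y, ← act_tm_right, fn_act, fn_act, h]

/-- the tensorator on values -/
def muPQ' (A B : PQ) (a b : Sp0) :
    (A ⊗ PQ.ofLC a.s) ⊗ (B ⊗ PQ.ofLC b.s) ⟶ (A ⊗ B) ⊗ PQ.ofLC (a.s ⊗ b.s) :=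
  tensorμ A (PQ.ofLC a.s) B (PQ.ofLC b.s) ≫ (A ⊗ B) ◁ (PQ.μLC a.s b.s).hom

theorem app_muPQ' (k : OnePoint A) (l : OnePoint B) (x : OnePoint a.s) (y : OnePoint b.s) :
    PQ.app (muPQ' A B a b) (kp (kp k (B := PQ.ofLC a.s) x) (kp l (B := PQ.ofLC b.s) y)) =
      kp (kp k l) (B := PQ.ofLC (a.s ⊗ b.s)) (smash x y) := by
  rw [muPQ', PQ.app_comp, PQ.app_tensorμ_kp]
  exact PQ.app_whiskerLeft_smash (A ⊗ B) (PQ.μLC a.s b.s).hom (smash k l) (smash x y)

/-- the tensorator on values -/
def muPQ (A B : PQ) (a b : Sp0) :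
    ((F.obj A).obj a) ⊗ ((F.obj B).obj b) ⟶ (F.obj (A ⊗ B)).obj (a ⊗ b) := muPQ' A B a b

theorem app_muPQ (k : OnePoint A) (l : OnePoint B) (x : OnePoint a.s) (y : OnePoint b.s) :
    PQ.app (muPQ A B a b) (kp (fm k x) (fm l y)) = fm (kp k l) (smp x y) :=
  app_muPQ' k l x y

/-- the tensorator as a bilinear morphism -/
def muBil (A B : PQ) : Bil (F.obj A) (F.obj B) (F.obj (A ⊗ B)) where
  toFun {a b} z w := PQ.app (muPQ A B a b) (kp z w)
  infty_left w := by rw [PQ.kp_infty_left]; exact PQ.app_infty _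
  infty_right z := by rw [PQ.kp_infty_right]; exact PQ.app_infty _
  nat u v z w := by
    obtain ⟨k, x, rfl⟩ := fm_surjective z
    obtain ⟨l, y, rfl⟩ := fm_surjective w
    rw [F_act, F_act, app_muPQ, app_muPQ, F_act, Sp0.app_tensorHom_smp]
  plot hz hw := PQ.app_plot (muPQ A B _ _) (PQ.kp_plot hz hw)

/-- the tensorator of `F` -/
noncomputable def muHom (A B : PQ) : F.obj A ⊗ F.obj B ⟶ F.obj (A ⊗ B) :=
  tensorDesc (muBil A B)

@[simp] theorem fn_muHom (k : OnePoint A) (l : OnePoint B) (x : OnePoint a.s)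
    (y : OnePoint b.s) :
    fn (muHom A B) (tm (fm k x) (fm l y)) = fm (kp k l) (smp x y) := by
  rw [muHom, tensorDesc_tm]
  exact app_muPQ k l x y

/-- the transpose of the inverse of the tensorator -/
noncomputable def muInv₀ (A B : PQ) : A ⊗ B ⟶ (F.obj A ⊗ F.obj B).obj (𝟙_ Sp0) :=
  PQ.lift₂ (fun k l => (F.obj A ⊗ F.obj B).act (λ_ (𝟙_ Sp0)).hom (tm (fm k pu) (fm l pu)))
    (fun l => by rw [fm_infty_left, tm_infty_left, act_infty])
    (fun k => by rw [fm_infty_left, tm_infty_right, act_infty])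
    (fun K k l hk hl => act_plot' _ _ (tm_plot (fm_plot hk continuous_const)
      (fm_plot hl continuous_const)))

theorem app_muInv₀ (k : OnePoint A) (l : OnePoint B) :
    PQ.app (muInv₀ A B) (kp k l) =
      (F.obj A ⊗ F.obj B).act (λ_ (𝟙_ Sp0)).hom (tm (fm k pu) (fm l pu)) :=
  PQ.app_lift₂_smash _ _ _ _ k l

/-- the inverse of the tensorator of `F` -/
noncomputable def muInv (A B : PQ) : F.obj (A ⊗ B) ⟶ F.obj A ⊗ F.obj B := Fyo (muInv₀ A B)

theorem fn_muInv (k : OnePoint A) (l : OnePoint B) (x : OnePoint a.s) :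
    fn (muInv A B) (fm (kp k l) x) =
      (F.obj A ⊗ F.obj B).act ((λ_ (𝟙_ Sp0)).hom ≫ Sp0.pt x) (tm (fm k pu) (fm l pu)) := by
  rw [muInv, fn_Fyo, app_muInv₀, act_comp]

@[simp] theorem fn_muInv_pu (k : OnePoint A) (l : OnePoint B) :
    fn (muInv A B) (fm (kp k l) pu) =
      (F.obj A ⊗ F.obj B).act (λ_ (𝟙_ Sp0)).hom (tm (fm k pu) (fm l pu)) := by
  rw [fn_muInv, pt_pu, Category.comp_id]

/-- The tensorator of `F`. -/
noncomputable def muIso (A B : PQ) : F.obj A ⊗ F.obj B ≅ F.obj (A ⊗ B) where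
  hom := muHom A B
  inv := muInv A B
  hom_inv_id := by
    apply FF_ext; intro k l
    rw [fn_comp, fn_muHom, fn_muInv, Sp0.pt_smp_pu, Iso.hom_inv_id, act_id, fn_id]
  inv_hom_id := by
    apply F_hom_ext; intro k
    obtain ⟨k, l, rfl⟩ := PQ.kp_surjective k
    rw [fn_comp, fn_muInv_pu, fn_act, fn_muHom, F_act, Sp0.app_leftUnitor_smp, fn_id]

/-- the unit comparison of `F` -/
noncomputable def epsIso : 𝟙_ CF ≅ F.obj (𝟙_ PQ) where
  hom := spYo (fm kpu pu)
  inv := Fyo ⟨fun u : OnePoint Unit => sp (a := 𝟙_ Sp0) u, sp_infty, fun _ _ hu => sp_plot hu⟩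
  hom_inv_id := sphere_hom_ext (by
    rw [fn_comp, fn_spYo_pu, fn_Fyo_pu]; rfl)
  inv_hom_id := by
    apply F_hom_ext; intro k
    rw [fn_comp, fn_Fyo_pu]
    change fn (spYo (fm kpu pu)) (sp (a := 𝟙_ Sp0) k) = fm k pu
    induction k using OnePoint.rec with
    | infty => exact (fn_infty _ _).trans (fm_infty_left _).symm
    | coe k => exact fn_spYo_pu _

theorem fn_epsIso_hom (x : OnePoint a.s) :
    fn epsIso.hom (sp x) = fm kpu x := by
  change fn (spYo (fm kpu pu)) (sp x) = _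
  rw [fn_spYo, ← fm_eq_act]

theorem app_spt_sp (x : OnePoint a.s) : LC.app (spt (sp x)).hom pu = x := rfl

/-- the monoidal structure of `F` -/
noncomputable def coreF : F.CoreMonoidal where
  εIso := epsIso
  μIso := muIso
  μIso_hom_natural_left {A B} f C := by
    apply FF_ext; intro k l
    rw [fn_comp, fn_comp, whiskerRight_tm, fn_F_map]
    change fn (muHom B C) _ = fn (F.map (f ▷ C)) (fn (muHom A C) _)
    rw [fn_muHom, fn_muHom, fn_F_map, PQ.app_whiskerRight_kp]
  μIso_hom_natural_right {A B} C f := by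
    apply FF_ext; intro k l
    rw [fn_comp, fn_comp, whiskerLeft_tm, fn_F_map]
    change fn (muHom C B) _ = fn (F.map (C ◁ f)) (fn (muHom C A) _)
    rw [fn_muHom, fn_muHom, fn_F_map, PQ.app_whiskerLeft_kp]
  associativity A B C := by
    apply FFF_ext; intro k l m
    simp only [fn_comp]
    rw [whiskerRight_tm, associator_tm, fn_act, whiskerLeft_tm]
    change fn (F.map (α_ A B C).hom) (fn (muHom (A ⊗ B) C) (tm (fn (muHom A B) _) _)) =
      fn (muHom A (B ⊗ C)) (CF.act _ _ (tm _ (fn (muHom B C) _)))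
    rw [fn_muHom, fn_muHom, fn_muHom, fn_F_map, fn_act, fn_muHom, F_act,
      PQ.app_associator_kp, Sp0.app_associator_inv_smp]
  left_unitality A := by
    apply FF_ext_right; intro k a x
    simp only [fn_comp]
    obtain ⟨x, rfl⟩ := sp_surjective x
    rw [leftUnitor_tm, whiskerRight_tm, fn_epsIso_hom]
    change _ = fn (F.map (λ_ A).hom) (fn (muHom (𝟙_ PQ) A) _)
    rw [fn_muHom, fn_F_map, PQ.app_leftUnitor_kp, F_act, Sp0.comp_hom, LC.app_comp,
      Sp0.app_leftUnitor_inv, Sp0.app_whiskerRight_smp, app_spt_sp]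
  right_unitality A := by
    apply FF_ext_left; intro k a x
    simp only [fn_comp]
    obtain ⟨x, rfl⟩ := sp_surjective x
    rw [rightUnitor_tm, whiskerLeft_tm, fn_epsIso_hom]
    change _ = fn (F.map (ρ_ A).hom) (fn (muHom A (𝟙_ PQ)) _)
    rw [fn_muHom, fn_F_map, PQ.app_rightUnitor_kp, F_act, Sp0.comp_hom, LC.app_comp,
      Sp0.app_rightUnitor_inv, Sp0.app_whiskerLeft_smp, app_spt_sp]

noncomputable instance : F.Monoidal := coreF.toMonoidal

open Functor.LaxMonoidal Functor.OplaxMonoidal Functor.Monoidal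

@[simp] theorem F_μ (A B : PQ) : μ F A B = muHom A B := rfl

@[simp] theorem F_δ (A B : PQ) : δ F A B = muInv A B := rfl

@[simp] theorem F_ε : ε F = epsIso.hom := rfl

@[simp] theorem F_η : η F = epsIso.inv := rfl

theorem fn_muInv_smp (k : OnePoint A) (l : OnePoint B) (x : OnePoint a.s) (y : OnePoint b.s) :
    fn (muInv A B) (fm (kp k l) (smp x y)) = tm (fm k x) (fm l y) := by
  rw [← fn_muHom, ← fn_comp]
  exact (congrArg (fun f => fn f (tm (fm k x) (fm l y))) (muIso A B).hom_inv_id).trans (fn_id _ _)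

theorem fn_epsIso_inv (x : OnePoint a.s) : fn epsIso.inv (fm kpu x) = sp x := by
  rw [← fn_epsIso_hom, ← fn_comp, Iso.hom_inv_id, fn_id]

noncomputable instance : F.Braided where
  braided A B := by
    apply FF_ext; intro k l
    rw [fn_comp, fn_comp, braiding_tm, fn_act, F_μ, F_μ, fn_muHom, fn_muHom, fn_F_map, F_act,
      PQ.app_braiding_kp, Sp0.app_braiding_smp]

/-- The functor from locally compact spaces to continuous functors is braided. -/
noncomputable instance : (PQ.LCPQ ⋙ CF.F).Braided := inferInstance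

end CF

end Vale.Agent.P251CA
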