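import Vale.Agent.P251.H.PQ
import Mathlib.Data.Matrix.Mul

/-!
# Orthogonal spectra: the index category of spheres

`Sp0` is the free unital magma on the generators `gen`, `euc n`; `Sp0.s : Sp0 → LC` sends them to
`ℝ`, `ℝⁿ` and products to tensor products (definitionally).  `Sp0` is a category with `a ⟶ b` the morphisms
`s a ⟶ s b` of `LC` which are zero or of the form `x ↦ φ x + v`, with `φ` a linear isometry and
`v` orthogonal to its image; it is symmetric monoidal with the structure of `LC`.  A family `w : K → (a ⟶ b)`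
indexed by a compact Hausdorff space is a plot if it is jointly continuous.
-/

open CategoryTheory MonoidalCategory Topology OnePoint

namespace Vale.Agent.P251CA

open Vale.Agent.P251.H

open Vale.Agent.P251.G (LC)
open Vale.Agent.P251.G.LC (smash)

/-- Codes for spheres. -/
inductive Sp0 : Type
  | one : Sp0
  | gen : Sp0
  | tens (a b : Sp0) : Sp0
  | euc (n : ℕ) : Sp0

namespace Sp0

/-- the sphere with a given code -/
def s : Sp0 → LC
  | one => 𝟙_ LC
  | gen => LC.of ℝ
  | tens a b => s a ⊗ s b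
  | euc n => LC.of (Fin n → ℝ)

/-- the inner product -/
def ip : (a : Sp0) → a.s → a.s → ℝ
  | one, _, _ => 0
  | gen, x, y => (show ℝ from x) * (show ℝ from y)
  | tens a b, x, y => ip a x.1 y.1 + ip b x.2 y.2
  | euc n, x, y => dotProduct (show Fin n → ℝ from x) (show Fin n → ℝ from y)

/-- The zero map and the maps `x ↦ φ x + v`, `φ` a linear isometry, `v` orthogonal to its image. -/
def Aff {a b : Sp0} (f : a.s ⟶ b.s) : Prop :=
  f = 0 ∨ ∃ (g : a.s → b.s) (c : ℝ), (∀ x : a.s, LC.app f (x : OnePoint a.s) = g x) ∧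
    ∀ x y, b.ip (g x) (g y) = a.ip x y + c

theorem Aff.of {a b : Sp0} {f : a.s ⟶ b.s} (g : a.s → b.s)
    (h : ∀ x : a.s, LC.app f (x : OnePoint a.s) = g x) (h' : ∀ x y, b.ip (g x) (g y) = a.ip x y) :
    Aff f := .inr ⟨g, 0, h, fun x y => (h' x y).trans (add_zero _).symm⟩

theorem Aff.id (a : Sp0) : Aff (𝟙 a.s) := .of (fun x => x) (fun _ => rfl) fun _ _ => rfl

theorem Aff.comp {a b c : Sp0} {f : a.s ⟶ b.s} {g : b.s ⟶ c.s} (hf : Aff f) (hg : Aff g) :
    Aff (f ≫ g) := by
  obtain rfl | ⟨u, r, h1, h2⟩ := hf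
  · exact .inl Limits.zero_comp
  obtain rfl | ⟨v, t, h3, h4⟩ := hg
  · exact .inl Limits.comp_zero
  exact .inr ⟨fun x => v (u x), r + t, fun x => by rw [LC.app_comp, h1, h3],
    fun x y => by rw [h4, h2, add_assoc]⟩

theorem LC_zero_tensorHom {X Y Z W : LC} (g : Z ⟶ W) : (0 : X ⟶ Y) ⊗ₘ g = 0 := by
  apply LC.tensor_ext; intro x z
  rw [LC.app_tensorHom_smash, LC.app_zero, LC.smash_infty_left, LC.app_zero]

theorem LC_tensorHom_zero {X Y Z W : LC} (f : X ⟶ Y) : f ⊗ₘ (0 : Z ⟶ W) = 0 := by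
  apply LC.tensor_ext; intro x z
  rw [LC.app_tensorHom_smash, LC.app_zero, LC.smash_infty_right, LC.app_zero]

theorem Aff.tensor {a b c d : Sp0} {f : a.s ⟶ b.s} {g : c.s ⟶ d.s} (hf : Aff f) (hg : Aff g) :
    Aff (a := tens a c) (b := tens b d) (f ⊗ₘ g) := by
  obtain rfl | ⟨u, r, h1, h2⟩ := hf
  · exact .inl (LC_zero_tensorHom _)
  obtain rfl | ⟨v, t, h3, h4⟩ := hg
  · exact .inl (LC_tensorHom_zero _)
  refine .inr ⟨fun x => (u x.1, v x.2), r + t, fun x => ?_, fun x y => ?_⟩
  · exact (LC.app_tensorHom_coe f g x.1 x.2).trans (by rw [h1, h3]; rfl)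
  · change b.ip (u x.1) (u y.1) + d.ip (v x.2) (v y.2) = a.ip x.1 y.1 + c.ip x.2 y.2 + (r + t)
    rw [h2, h4]
    ring

/-- Morphisms of codes. -/
@[ext]
structure Hom (a b : Sp0) where
  /-- the morphism of `LC` -/
  hom : a.s ⟶ b.s
  aff : Aff hom

instance : Category Sp0 where
  Hom := Hom
  id a := ⟨𝟙 a.s, .id a⟩
  comp f g := ⟨f.hom ≫ g.hom, f.aff.comp g.aff⟩

@[ext (iff := false)]
theorem hom_ext {a b : Sp0} {f g : a ⟶ b} (h : f.hom = g.hom) : f = g := Hom.ext h

@[simp] theorem id_hom (a : Sp0) : Hom.hom (𝟙 a) = 𝟙 a.s := rfl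

@[simp, reassoc] theorem comp_hom {a b c : Sp0} (f : a ⟶ b) (g : b ⟶ c) :
    (f ≫ g).hom = f.hom ≫ g.hom := rfl

/-- the morphism of codes given by a morphism of spheres -/
abbrev mk {a b : Sp0} (f : a.s ⟶ b.s) (h : Aff f) : a ⟶ b := ⟨f, h⟩

/-- isomorphisms of codes from isomorphisms of spheres -/
@[simps] def isoMk {a b : Sp0} (e : a.s ≅ b.s) (h : Aff e.hom) (h' : Aff e.inv) : a ≅ b where
  hom := ⟨e.hom, h⟩
  inv := ⟨e.inv, h'⟩
  hom_inv_id := hom_ext e.hom_inv_id
  inv_hom_id := hom_ext e.inv_hom_id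

/-- the functor from codes to spaces -/
@[simps] def toLC : Sp0 ⥤ LC where
  obj := s
  map f := f.hom

instance : toLC.Faithful where
  map_injective h := hom_ext h

instance : Limits.HasZeroMorphisms Sp0 where
  zero _ _ := ⟨⟨0, .inl rfl⟩⟩
  comp_zero _ _ := hom_ext Limits.comp_zero
  zero_comp _ _ _ _ := hom_ext Limits.zero_comp

@[simp] theorem zero_hom (a b : Sp0) : (0 : a ⟶ b).hom = 0 := rfl

instance : MonoidalCategoryStruct Sp0 where
  tensorObj := tens
  tensorUnit := one
  whiskerLeft a _ _ f := ⟨a.s ◁ f.hom, id_tensorHom a.s f.hom ▸ (Aff.id a).tensor f.aff⟩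
  whiskerRight f c := ⟨f.hom ▷ c.s, tensorHom_id f.hom c.s ▸ f.aff.tensor (Aff.id c)⟩
  tensorHom f g := ⟨f.hom ⊗ₘ g.hom, f.aff.tensor g.aff⟩
  associator a b c := isoMk (a := tens (tens a b) c) (b := tens a (tens b c)) (α_ a.s b.s c.s)
    (.of (fun x => (x.1.1, x.1.2, x.2)) (fun _ => rfl) fun _ _ => (add_assoc _ _ _).symm)
    (.of (fun x => ((x.1, x.2.1), x.2.2)) (fun _ => rfl) fun _ _ => add_assoc _ _ _)
  leftUnitor a := isoMk (a := tens one a) (λ_ a.s)
    (.of (fun x => x.2) (fun _ => rfl) fun _ _ => (zero_add _).symm)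
    (.of (fun x => ((), x)) (fun _ => rfl) fun _ _ => zero_add _)
  rightUnitor a := isoMk (a := tens a one) (ρ_ a.s)
    (.of (fun x => x.1) (fun _ => rfl) fun _ _ => (add_zero _).symm)
    (.of (fun x => (x, ())) (fun _ => rfl) fun _ _ => add_zero _)

@[simp] theorem s_tensor (a b : Sp0) : (a ⊗ b).s = a.s ⊗ b.s := rfl

@[simp] theorem s_unit : (𝟙_ Sp0).s = 𝟙_ LC := rfl

@[simp] theorem whiskerLeft_hom (a : Sp0) {b c : Sp0} (f : b ⟶ c) :
    (a ◁ f).hom = a.s ◁ f.hom := rfl

@[simp] theorem whiskerRight_hom {a b : Sp0} (f : a ⟶ b) (c : Sp0) :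
    (f ▷ c).hom = f.hom ▷ c.s := rfl

@[simp] theorem tensorHom_hom {a b c d : Sp0} (f : a ⟶ b) (g : c ⟶ d) :
    (f ⊗ₘ g).hom = f.hom ⊗ₘ g.hom := rfl

@[simp] theorem associator_hom_hom (a b c : Sp0) :
    (α_ a b c).hom.hom = (α_ a.s b.s c.s).hom := rfl

@[simp] theorem associator_inv_hom (a b c : Sp0) :
    (α_ a b c).inv.hom = (α_ a.s b.s c.s).inv := rfl

@[simp] theorem leftUnitor_hom_hom (a : Sp0) : (λ_ a).hom.hom = (λ_ a.s).hom := rfl

@[simp] theorem leftUnitor_inv_hom (a : Sp0) : (λ_ a).inv.hom = (λ_ a.s).inv := rfl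

@[simp] theorem rightUnitor_hom_hom (a : Sp0) : (ρ_ a).hom.hom = (ρ_ a.s).hom := rfl

@[simp] theorem rightUnitor_inv_hom (a : Sp0) : (ρ_ a).inv.hom = (ρ_ a.s).inv := rfl

instance : MonoidalCategory Sp0 where
  tensorHom_def f g := hom_ext (tensorHom_def f.hom g.hom)
  id_tensorHom_id a b := hom_ext (id_tensorHom_id a.s b.s)
  tensorHom_comp_tensorHom f₁ f₂ g₁ g₂ :=
    hom_ext (tensorHom_comp_tensorHom f₁.hom f₂.hom g₁.hom g₂.hom)
  whiskerLeft_id a b := hom_ext (MonoidalCategory.whiskerLeft_id a.s b.s)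
  id_whiskerRight a b := hom_ext (id_whiskerRight a.s b.s)
  associator_naturality f₁ f₂ f₃ := hom_ext (associator_naturality f₁.hom f₂.hom f₃.hom)
  leftUnitor_naturality f := hom_ext (leftUnitor_naturality f.hom)
  rightUnitor_naturality f := hom_ext (rightUnitor_naturality f.hom)
  pentagon a b c d := hom_ext (pentagon a.s b.s c.s d.s)
  triangle a b := hom_ext (triangle a.s b.s)

instance : BraidedCategory Sp0 where
  braiding a b := isoMk (a := tens a b) (b := tens b a) (β_ a.s b.s)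
    (.of (fun x => (x.2, x.1)) (fun _ => rfl) fun _ _ => add_comm _ _)
    (.of (fun x => (x.2, x.1)) (fun _ => rfl) fun _ _ => add_comm _ _)
  braiding_naturality_right a _ _ f :=
    hom_ext (BraidedCategory.braiding_naturality_right a.s f.hom)
  braiding_naturality_left f c :=
    hom_ext (BraidedCategory.braiding_naturality_left f.hom c.s)
  hexagon_forward a b c := hom_ext (BraidedCategory.hexagon_forward a.s b.s c.s)
  hexagon_reverse a b c := hom_ext (BraidedCategory.hexagon_reverse a.s b.s c.s)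

@[simp] theorem braiding_hom_hom (a b : Sp0) : (β_ a b).hom.hom = (β_ a.s b.s).hom := rfl

@[simp] theorem braiding_inv_hom (a b : Sp0) : (β_ a b).inv.hom = (β_ a.s b.s).inv := rfl

instance : SymmetricCategory Sp0 where
  symmetry a b := hom_ext (SymmetricCategory.symmetry a.s b.s)

@[simp] theorem zero_tensorHom {a b c d : Sp0} (g : c ⟶ d) : (0 : a ⟶ b) ⊗ₘ g = 0 :=
  hom_ext (LC_zero_tensorHom _)

@[simp] theorem tensorHom_zero {a b c d : Sp0} (f : a ⟶ b) : f ⊗ₘ (0 : c ⟶ d) = 0 :=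
  hom_ext (LC_tensorHom_zero _)

@[simp] theorem zero_whiskerRight (a b c : Sp0) : (0 : a ⟶ b) ▷ c = 0 := by
  rw [← tensorHom_id, zero_tensorHom]

@[simp] theorem whiskerLeft_zero (a b c : Sp0) : a ◁ (0 : b ⟶ c) = 0 := by
  rw [← id_tensorHom, tensorHom_zero]

section plot

/-- Jointly continuous families of morphisms. -/
def plot (K : CH) {a b : Sp0} (w : K → (a ⟶ b)) : Prop :=
  Continuous (fun p : K × OnePoint a.s => LC.app (w p.1).hom p.2)

variable {K L : CH} {a b c d : Sp0}

theorem plot_const (K : CH) (w : a ⟶ b) : plot K (fun _ => w) :=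
  (LC.continuous_app w.hom).comp continuous_snd

theorem plot_pre (g : L → K) (hg : Continuous g) {w : K → (a ⟶ b)} (hw : plot K w) :
    plot L (fun l => w (g l)) :=
  hw.comp ((hg.comp continuous_fst).prodMk continuous_snd)

theorem plot_comp {w : K → (a ⟶ b)} {v : K → (b ⟶ c)} (hw : plot K w) (hv : plot K v) :
    plot K (fun k => w k ≫ v k) :=
  hv.comp (continuous_fst.prodMk hw)

theorem plot_surj (g : L → K) (hg : Continuous g) (hs : Function.Surjective g)
    {w : K → (a ⟶ b)} (hw : plot L (fun l => w (g l))) : plot K w := by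
  let G : L × OnePoint a.s → K × OnePoint a.s := fun p => (g p.1, p.2)
  have hG : Continuous G := (hg.comp continuous_fst).prodMk continuous_snd
  have hGs : Function.Surjective G := by
    rintro ⟨k, x⟩
    obtain ⟨l, rfl⟩ := hs k
    exact ⟨(l, x), rfl⟩
  exact (IsQuotientMap.of_surjective_continuous hGs hG).continuous_iff.mpr hw

theorem plot_sum {w : K ⊕ L → (a ⟶ b)} (h1 : plot K (fun k => w (Sum.inl k)))
    (h2 : plot L (fun l => w (Sum.inr l))) : plot (CH.sum K L) w := by
  let G : (K × OnePoint a.s) ⊕ (L × OnePoint a.s) → (K ⊕ L) × OnePoint a.s :=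
    Sum.elim (fun p => (Sum.inl p.1, p.2)) (fun p => (Sum.inr p.1, p.2))
  have hG : Continuous G := by
    refine Continuous.sumElim ?_ ?_ <;> fun_prop
  have hGs : Function.Surjective G := by
    rintro ⟨k | k, x⟩
    · exact ⟨Sum.inl (k, x), rfl⟩
    · exact ⟨Sum.inr (k, x), rfl⟩
  exact (IsQuotientMap.of_surjective_continuous hGs hG).continuous_iff.mpr
    (continuous_sum_dom.mpr ⟨h1, h2⟩)

theorem smash_surjective {X Y : Type} :
    Function.Surjective (fun p : OnePoint X × OnePoint Y => smash p.1 p.2) := by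
  intro z
  induction z using OnePoint.rec with
  | infty => exact ⟨(∞, ∞), rfl⟩
  | coe z => exact ⟨((z.1 : OnePoint X), (z.2 : OnePoint Y)), rfl⟩

theorem plot_tensorHom {w : K → (a ⟶ b)} {v : K → (c ⟶ d)} (hw : plot K w) (hv : plot K v) :
    plot K (fun k => w k ⊗ₘ v k) := by
  let G : K × (OnePoint a.s × OnePoint c.s) → K × OnePoint (a.s × c.s) :=
    fun p => (p.1, smash p.2.1 p.2.2)
  have hG : Continuous G :=
    continuous_fst.prodMk (LC.continuous_smash.comp continuous_snd)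
  have hGs : Function.Surjective G := by
    rintro ⟨k, z⟩
    obtain ⟨p, rfl⟩ := smash_surjective z
    exact ⟨(k, p), rfl⟩
  have key : Continuous (fun p : K × (OnePoint a.s × OnePoint c.s) =>
      smash (LC.app (w p.1).hom p.2.1) (LC.app (v p.1).hom p.2.2)) :=
    LC.continuous_smash.comp
      ((hw.comp (continuous_fst.prodMk (continuous_fst.comp continuous_snd))).prodMk
        (hv.comp (continuous_fst.prodMk (continuous_snd.comp continuous_snd))))
  exact (IsQuotientMap.of_surjective_continuous hGs hG).continuous_iff.mpr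
    (key.congr fun p => (LC.app_tensorHom_smash (w p.1).hom (v p.1).hom p.2.1 p.2.2).symm)

theorem plot_whiskerRight {w : K → (a ⟶ b)} (hw : plot K w) (c : Sp0) :
    plot K (fun k => w k ▷ c) := by
  simp_rw [← tensorHom_id]
  exact plot_tensorHom hw (plot_const K _)

theorem plot_whiskerLeft {w : K → (a ⟶ b)} (hw : plot K w) (c : Sp0) :
    plot K (fun k => c ◁ w k) := by
  simp_rw [← id_tensorHom]
  exact plot_tensorHom (plot_const K _) hw

end plot

section pt

/-- The morphism `one ⟶ a` corresponding to a point of the sphere. -/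
def pt {a : Sp0} (p : OnePoint a.s) : 𝟙_ Sp0 ⟶ a where
  hom := LC.mk' (X := LC.of Unit) (fun _ => p) continuous_const (by
    rw [Filter.cocompact_eq_bot]; exact Filter.tendsto_bot)
  aff := by
    induction p using OnePoint.rec with
    | infty => exact .inl (LC.hom_ext fun _ => rfl)
    | coe p => exact .inr ⟨fun _ => p, a.ip p p, fun _ => rfl, fun _ _ => (zero_add _).symm⟩

@[simp] theorem app_pt {a : Sp0} (p : OnePoint a.s) :
    LC.app (pt p).hom ((() : Unit) : OnePoint Unit) = p := rfl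

theorem hom_ext_one {a : Sp0} {f g : 𝟙_ Sp0 ⟶ a}
    (h : LC.app f.hom ((() : Unit) : OnePoint Unit) =
      LC.app g.hom ((() : Unit) : OnePoint Unit)) : f = g := by
  apply hom_ext
  apply LC.hom_ext
  rintro ⟨⟩
  exact h

theorem pt_app {a : Sp0} (f : 𝟙_ Sp0 ⟶ a) :
    pt (LC.app f.hom ((() : Unit) : OnePoint Unit)) = f := hom_ext_one rfl

@[simp] theorem pt_infty (a : Sp0) : pt (∞ : OnePoint a.s) = 0 := hom_ext_one rfl

theorem pt_comp {a b : Sp0} (p : OnePoint a.s) (f : a ⟶ b) :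
    pt p ≫ f = pt (LC.app f.hom p) := hom_ext_one rfl

theorem pt_unit : pt (a := 𝟙_ Sp0) ((() : Unit) : OnePoint Unit) = 𝟙 _ := hom_ext_one rfl

theorem plot_pt {K : CH} {a : Sp0} {p : K → OnePoint a.s} (hp : Continuous p) :
    plot K (fun k => pt (p k)) := by
  let G : K ⊕ K → K × OnePoint Unit :=
    Sum.elim (fun k => (k, ∞)) (fun k => (k, ((() : Unit) : OnePoint Unit)))
  have hG : Continuous G := by
    refine Continuous.sumElim ?_ ?_ <;> fun_prop
  have hGs : Function.Surjective G := by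
    rintro ⟨k, x⟩
    induction x using OnePoint.rec with
    | infty => exact ⟨Sum.inl k, rfl⟩
    | coe x => exact ⟨Sum.inr k, rfl⟩
  refine (IsQuotientMap.of_surjective_continuous hGs hG).continuous_iff.mpr
    (continuous_sum_dom.mpr ⟨?_, ?_⟩)
  · have : (fun k => LC.app (pt (p k)).hom (∞ : OnePoint Unit)) = fun _ => ∞ := by
      funext k; exact LC.app_infty _
    change Continuous (fun k => LC.app (pt (p k)).hom (∞ : OnePoint Unit))
    rw [this]
    exact continuous_const
  · exact hp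

end pt

end Sp0

end Vale.Agent.P251CA
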